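import Vale.Agent.P040.H84.CoreDef

/-!
# P040: one Hurwitz move changes the potentials by at most one
-/

namespace Vale.Agent.P040.H84

variable {X G : Type*} [Group G]

theorem pr_take_swap {T : X → G} {x y x' : X × G} (hg : gg T y * gg T x' = gg T x * gg T y)
    (P R : List (X × G)) {n : ℕ} (hn : n ≤ P.length ∨ P.length + 2 ≤ n) :
    pr T ((P ++ y :: x' :: R).take n) = pr T ((P ++ x :: y :: R).take n) := by
  rcases hn with hn | hn
  · rw [List.take_append_of_le_length hn, List.take_append_of_le_length hn]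
  · obtain ⟨k, rfl⟩ := Nat.exists_eq_add_of_le hn
    rw [List.take_append, List.take_append, pr_append, pr_append]
    congr 1
    rw [show P.length + 2 + k - P.length = k + 1 + 1 by omega, List.take_succ_cons,
      List.take_succ_cons, List.take_succ_cons, List.take_succ_cons, pr_cons, pr_cons, pr_cons,
      pr_cons, ← mul_assoc, hg, mul_assoc]

theorem pr_drop_swap {T : X → G} {x y x' : X × G} (hg : gg T y * gg T x' = gg T x * gg T y)
    (P R : List (X × G)) {n : ℕ} (hn : n ≤ P.length ∨ P.length + 2 ≤ n) :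
    pr T ((P ++ y :: x' :: R).drop n) = pr T ((P ++ x :: y :: R).drop n) := by
  rcases hn with hn | hn
  · rw [List.drop_append_of_le_length hn, List.drop_append_of_le_length hn, pr_append, pr_append]
    congr 1
    rw [pr_cons, pr_cons, pr_cons, pr_cons, ← mul_assoc, hg, mul_assoc]
  · obtain ⟨k, rfl⟩ := Nat.exists_eq_add_of_le hn
    rw [List.drop_append, List.drop_append, pr_append, pr_append]
    congr 1
    rw [show P.length + 2 + k - P.length = k + 1 + 1 by omega, List.drop_succ_cons,
      List.drop_succ_cons, List.drop_succ_cons, List.drop_succ_cons]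

omit [Group G] in
theorem take_eq {A B : List (X × G)} {n : ℕ} (h : A.length = n) : (A ++ B).take n = A := by
  rw [← h, List.take_left]

omit [Group G] in
theorem drop_eq {A B : List (X × G)} {n : ℕ} (h : A.length = n) : (A ++ B).drop n = B := by
  rw [← h, List.drop_left]

section hyp

variable {h : ℕ} {T : X → G} {Val : X → G → ℝ → Prop} {Dg : List (X × G) → Prop} {ε : ℝ}
  (H : CoreHyp h T Val Dg ε)

include H

theorem CoreHyp.exists_shape {x y : X × G} {L : List (X × G)} (hD : Dg (x :: y :: L)) :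
    ∃ (A B : List (X × G)) (p q : X × G), L = B ++ p :: q :: A ∧ A.length + 2 = h ∧
      B.length + 2 = h := by
  have h1 := H.len hD
  have h2 := H.two_le
  simp only [List.length_cons] at h1
  have h3 : (L.take (h - 2)).length = h - 2 := by rw [List.length_take]; omega
  obtain ⟨p, M, hM⟩ : ∃ p M, L.drop (h - 2) = p :: M := by
    cases hd : L.drop (h - 2) with
    | nil =>
      have := congrArg List.length hd
      rw [List.length_drop, List.length_nil] at this
      omega
    | cons p M => exact ⟨p, M, rfl⟩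
  have hMl := congrArg List.length hM
  rw [List.length_drop, List.length_cons] at hMl
  obtain ⟨q, A, rfl⟩ : ∃ q A, M = q :: A := by
    cases M with
    | nil => rw [List.length_nil] at hMl; omega
    | cons q A => exact ⟨q, A, rfl⟩
  rw [List.length_cons] at hMl
  refine ⟨A, L.take (h - 2), p, q, ?_, by omega, by omega⟩
  rw [← hM, List.take_append_drop]

/-- **Half twist.** One Hurwitz move changes the potentials by at most one in total. -/
theorem CoreHyp.tw'_le [Fintype X] {x y : X × G} {L : List (X × G)} (hD : Dg (x :: y :: L)) :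
    ∑ z, |F h T Val z (y :: (x.1, (gg T y)⁻¹ * x.2) :: L) - F h T Val z (x :: y :: L)| ≤ 1 := by
  classical
  obtain ⟨A, B, p, q, rfl, hA, hB⟩ := H.exists_shape hD
  have hD' := H.tw' hD
  have hn := H.nodup hD
  have hn' := H.nodup hD'
  obtain ⟨x1, wx⟩ := x
  obtain ⟨y1, wy⟩ := y
  obtain ⟨p1, wp⟩ := p
  obtain ⟨q1, wq⟩ := q
  set x : X × G := (x1, wx) with hx
  set y : X × G := (y1, wy) with hy
  set p : X × G := (p1, wp) with hp
  set q : X × G := (q1, wq) with hq
  set x' : X × G := (x1, (gg T y)⁻¹ * wx) with hx'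
  change ∑ z, |F h T Val z (y :: x' :: (B ++ p :: q :: A)) -
    F h T Val z (x :: y :: (B ++ p :: q :: A))| ≤ 1
  change Dg (y :: x' :: (B ++ p :: q :: A)) at hD'
  have hgx' : gg T y * gg T x' = gg T x * gg T y := by
    simp only [hx', hx, gg]
    group
  -- distinctness
  have hnn : ((x :: y :: (B ++ p :: q :: A)).map Prod.fst).Nodup := hn
  simp only [List.map_cons, List.map_append, hx, hy, hp, hq] at hnn
  have hxy : x1 ≠ y1 := by rintro rfl; simp at hnn
  have hxp : x1 ≠ p1 := by rintro rfl; simp at hnn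
  have hxq : x1 ≠ q1 := by rintro rfl; simp at hnn
  have hyp : y1 ≠ p1 := by rintro rfl; simp at hnn
  have hyq : y1 ≠ q1 := by rintro rfl; simp at hnn
  have hpq : p1 ≠ q1 := by
    rintro rfl
    simp [List.nodup_cons, List.nodup_append] at hnn
  have hxA : x1 ∉ A.map Prod.fst := by
    intro hh; rw [List.nodup_cons] at hnn; exact hnn.1 (by simp [hh])
  have hxB : x1 ∉ B.map Prod.fst := by
    intro hh; rw [List.nodup_cons] at hnn; exact hnn.1 (by simp [hh])
  rw [List.nodup_cons] at hnn
  have hnn2 := hnn.2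
  have hyA : y1 ∉ A.map Prod.fst := by
    intro hh; rw [List.nodup_cons] at hnn2; exact hnn2.1 (by simp [hh])
  have hyB : y1 ∉ B.map Prod.fst := by
    intro hh; rw [List.nodup_cons] at hnn2; exact hnn2.1 (by simp [hh])
  rw [List.nodup_cons, List.nodup_append] at hnn2
  obtain ⟨-, hnB, hnpq, hBd⟩ := hnn2
  have hpB : p1 ∉ B.map Prod.fst := fun hh => hBd _ hh _ (by simp) rfl
  have hqB : q1 ∉ B.map Prod.fst := fun hh => hBd _ hh _ (by simp) rfl
  rw [List.nodup_cons] at hnpq
  have hpA : p1 ∉ A.map Prod.fst := fun hh => hnpq.1 (by simp [hh])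
  have hnqA := hnpq.2
  rw [List.nodup_cons] at hnqA
  have hqA : q1 ∉ A.map Prod.fst := hnqA.1
  have hnA := hnqA.2
  have hAB : ∀ z ∈ A.map Prod.fst, z ∉ B.map Prod.fst := fun z hz hz' =>
    hBd _ hz' _ (by simp [hz]) rfl
  -- the two triangles
  have hS1 : Dg (q :: (A ++ x :: ([] ++ y :: (B ++ [p])))) := by
    have h1 : Dg ((x :: y :: (B ++ [p])) ++ (q :: A)) := by simpa using hD
    simpa using H.rotn h1
  obtain ⟨c1, c2, a2, a3, b3, b1, hc1, hc2, ha2, ha3, hb3, hb1, hs1⟩ :=
    H.tri hS1 (by simpa using hA)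
  have hS2 : Dg (y :: ([] ++ x' :: (B ++ p :: (q :: A)))) := hD'
  obtain ⟨c1', c2', a2', a3', b3', b1', hc1', hc2', ha2', ha3', hb3', hb1', hs2⟩ :=
    H.tri hS2 (by simpa using hB)
  -- the four changing leaves
  have hFq : F h T Val q1 (y :: x' :: (B ++ p :: q :: A)) -
      F h T Val q1 (x :: y :: (B ++ p :: q :: A)) = (a2 - a3) / 2 := by
    have e1 := F_eq h T Val (z := q1) (w := wq) (A := y :: x' :: (B ++ [p])) (B := A) (by
      simp [hx', hy, hp, hxq.symm, hyq.symm, hpq.symm]
      simpa using hqB)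
    have e2 := F_eq h T Val (z := q1) (w := wq) (A := x :: y :: (B ++ [p])) (B := A) (by
      simp [hx, hy, hp, hxq.symm, hyq.symm, hpq.symm]
      simpa using hqB)
    rw [show (y :: x' :: (B ++ [p])) ++ (q1, wq) :: A = y :: x' :: (B ++ p :: q :: A) by
      simp [hq]] at e1
    rw [show (x :: y :: (B ++ [p])) ++ (q1, wq) :: A = x :: y :: (B ++ p :: q :: A) by
      simp [hq]] at e2
    rw [e1, e2]
    unfold Fp
    rw [show A ++ (y :: x' :: (B ++ [p])) = (A ++ [y]) ++ (x' :: (B ++ [p])) by simp,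
      show A ++ (x :: y :: (B ++ [p])) = (A ++ [x]) ++ (y :: (B ++ [p])) by simp,
      take_eq (by rw [List.length_append, List.length_singleton]; omega),
      take_eq (by rw [List.length_append, List.length_singleton]; omega),
      show (A ++ [y]) ++ (x' :: (B ++ [p])) = (A ++ [y, x']) ++ (B ++ [p]) by simp,
      show (A ++ [x]) ++ (y :: (B ++ [p])) = (A ++ [x, y]) ++ (B ++ [p]) by simp,
      drop_eq (by simpa using hA), drop_eq (by simpa using hA)]
    have f1 : vv Val q1 (wq⁻¹ * pr T (A ++ [y]) * wq) = a2 := by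
      refine H.vv_eq ?_
      simpa [hq] using ha2
    have f2 : vv Val q1 (wq⁻¹ * pr T (A ++ [x]) * wq) = a3 := by
      refine H.vv_eq ?_
      simpa [hq] using ha3
    simp only [f1, f2]
    ring
  have hFp : F h T Val p1 (y :: x' :: (B ++ p :: q :: A)) -
      F h T Val p1 (x :: y :: (B ++ p :: q :: A)) = (c1' - c2') / 2 := by
    have e1 := F_eq h T Val (z := p1) (w := wp) (A := y :: x' :: B) (B := q :: A) (by
      simp [hx', hy, hxp.symm, hyp.symm]
      simpa using hpB)
    have e2 := F_eq h T Val (z := p1) (w := wp) (A := x :: y :: B) (B := q :: A) (by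
      simp [hx, hy, hxp.symm, hyp.symm]
      simpa using hpB)
    rw [show (y :: x' :: B) ++ (p1, wp) :: q :: A = y :: x' :: (B ++ p :: q :: A) by
      simp [hp]] at e1
    rw [show (x :: y :: B) ++ (p1, wp) :: q :: A = x :: y :: (B ++ p :: q :: A) by
      simp [hp]] at e2
    rw [e1, e2]
    unfold Fp
    rw [take_eq (by rw [List.length_cons]; omega), take_eq (by rw [List.length_cons]; omega),
      show (q :: A) ++ (y :: x' :: B) = ((q :: A) ++ [y]) ++ (x' :: B) by simp,
      show (q :: A) ++ (x :: y :: B) = ((q :: A) ++ [x]) ++ (y :: B) by simp,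
      drop_eq (by simpa using hA), drop_eq (by simpa using hA)]
    have f1 : vv Val p1 (wp⁻¹ * pr T (x' :: B) * wp) = c1' := by
      refine H.vv_eq ?_
      simpa [hp] using hc1'
    have f2 : vv Val p1 (wp⁻¹ * pr T (y :: B) * wp) = c2' := by
      refine H.vv_eq ?_
      simpa [hp] using hc2'
    simp only [f1, f2]
    ring
  have hFy : F h T Val y1 (y :: x' :: (B ++ p :: q :: A)) -
      F h T Val y1 (x :: y :: (B ++ p :: q :: A)) = (a3' - a2') / 2 + (c2 - c1) / 2 := by
    have e1 := F_eq h T Val (z := y1) (w := wy) (A := []) (B := x' :: (B ++ p :: q :: A)) (by simp)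
    have e2 := F_eq h T Val (z := y1) (w := wy) (A := [x]) (B := B ++ p :: q :: A) (by
      simp [hx, hxy.symm])
    rw [show [] ++ (y1, wy) :: x' :: (B ++ p :: q :: A) = y :: x' :: (B ++ p :: q :: A) by
      simp [hy]] at e1
    rw [show [x] ++ (y1, wy) :: (B ++ p :: q :: A) = x :: y :: (B ++ p :: q :: A) by
      simp [hy]] at e2
    rw [e1, e2]
    unfold Fp
    rw [show x' :: (B ++ p :: q :: A) ++ [] = (x' :: B) ++ (p :: q :: A) by simp,
      show B ++ p :: q :: A ++ [x] = (B ++ [p]) ++ (q :: A ++ [x]) by simp,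
      take_eq (by rw [List.length_cons]; omega),
      take_eq (by rw [List.length_append, List.length_singleton]; omega),
      show (x' :: B) ++ (p :: q :: A) = ((x' :: B) ++ [p]) ++ (q :: A) by simp,
      show (B ++ [p]) ++ (q :: A ++ [x]) = (B ++ [p, q]) ++ (A ++ [x]) by simp,
      drop_eq (by simpa using hB), drop_eq (by simpa using hB)]
    have f1 : vv Val y1 (wy⁻¹ * pr T (x' :: B) * wy) = a3' := by
      refine H.vv_eq ?_
      simpa [hy] using ha3'
    have f2 : vv Val y1 (wy⁻¹ * pr T (q :: A) * wy) = c2 := by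
      refine H.vv_eq ?_
      simpa [hy] using hc2
    have f3 : vv Val y1 (wy⁻¹ * pr T (B ++ [p]) * wy) = a2' := by
      refine H.vv_eq ?_
      simpa [hy] using ha2'
    have f4 : vv Val y1 (wy⁻¹ * pr T (A ++ [x]) * wy) = c1 := by
      refine H.vv_eq ?_
      simpa [hy] using hc1
    simp only [f1, f2, f3, f4]
    ring
  have hFx : F h T Val x1 (y :: x' :: (B ++ p :: q :: A)) -
      F h T Val x1 (x :: y :: (B ++ p :: q :: A)) = (b1' - b3') / 2 + (b1 - b3) / 2 := by
    have e1 := F_eq h T Val (z := x1) (w := (gg T y)⁻¹ * wx) (A := [y]) (B := B ++ p :: q :: A)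
      (by simp [hy, hxy])
    have e2 := F_eq h T Val (z := x1) (w := wx) (A := []) (B := y :: (B ++ p :: q :: A)) (by simp)
    rw [show [y] ++ (x1, (gg T y)⁻¹ * wx) :: (B ++ p :: q :: A) = y :: x' :: (B ++ p :: q :: A) by
      simp [hx']] at e1
    rw [show [] ++ (x1, wx) :: y :: (B ++ p :: q :: A) = x :: y :: (B ++ p :: q :: A) by
      simp [hx]] at e2
    rw [e1, e2]
    unfold Fp
    rw [show y :: (B ++ p :: q :: A) ++ [] = (y :: B) ++ (p :: q :: A) by simp,
      show B ++ p :: q :: A ++ [y] = (B ++ [p]) ++ (q :: A ++ [y]) by simp,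
      take_eq (by rw [List.length_append, List.length_singleton]; omega),
      take_eq (by rw [List.length_cons]; omega),
      show (y :: B) ++ (p :: q :: A) = ((y :: B) ++ [p]) ++ (q :: A) by simp,
      show (B ++ [p]) ++ (q :: A ++ [y]) = (B ++ [p, q]) ++ (A ++ [y]) by simp,
      drop_eq (by simpa using hB), drop_eq (by simpa using hB)]
    have f1 : vv Val x1 (((gg T y)⁻¹ * wx)⁻¹ * pr T (B ++ [p]) * ((gg T y)⁻¹ * wx)) = b1' := by
      refine H.vv_eq ?_
      simpa [hx'] using hb1'
    have f2 : vv Val x1 (((gg T y)⁻¹ * wx)⁻¹ * pr T (A ++ [y]) * ((gg T y)⁻¹ * wx)) = b1 := by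
      refine H.vv_eq ?_
      have e : ((gg T y)⁻¹ * wx)⁻¹ * pr T (A ++ [y]) * ((gg T y)⁻¹ * wx) =
          x.2⁻¹ * (pr T [] * gg T y * pr T A) * x.2 := by
        simp only [pr_append, pr_cons, pr_nil, hx]
        group
      rw [e]
      exact hb1
    have f3 : vv Val x1 (wx⁻¹ * pr T (y :: B) * wx) = b3' := by
      refine H.vv_eq ?_
      have e : wx⁻¹ * pr T (y :: B) * wx =
          x'.2⁻¹ * (pr T B * gg T y * pr T []) * x'.2 := by
        simp only [pr_cons, pr_nil, hx']
        group
      rw [e]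
      exact hb3'
    have f4 : vv Val x1 (wx⁻¹ * pr T (q :: A) * wx) = b3 := by
      refine H.vv_eq ?_
      simpa [hx] using hb3
    simp only [f1, f2, f3, f4]
    ring
  -- the other leaves
  have hF0 : ∀ z, z ∉ ({x1, y1, p1, q1} : Finset X) →
      F h T Val z (y :: x' :: (B ++ p :: q :: A)) = F h T Val z (x :: y :: (B ++ p :: q :: A)) := by
    intro z hz
    simp only [Finset.mem_insert, Finset.mem_singleton, not_or] at hz
    obtain ⟨hzx, hzy, hzp, hzq⟩ := hz
    by_cases hzA : z ∈ A.map Prod.fst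
    · have hzB : z ∉ B.map Prod.fst := hAB z hzA
      obtain ⟨A1, w, A2, rfl, hA1, hA2⟩ := exists_split hzA hnA
      have e1 := F_eq h T Val (z := z) (w := w) (A := y :: x' :: (B ++ p :: q :: A1)) (B := A2) (by
        simp [hx', hy, hp, hq, hzx, hzy, hzp, hzq]
        exact ⟨by simpa using hzB, by simpa using hA1⟩)
      have e2 := F_eq h T Val (z := z) (w := w) (A := x :: y :: (B ++ p :: q :: A1)) (B := A2) (by
        simp [hx, hy, hp, hq, hzx, hzy, hzp, hzq]
        exact ⟨by simpa using hzB, by simpa using hA1⟩)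
      have s1 : ∀ u v : X × G, u :: v :: (B ++ p :: q :: A1) ++ (z, w) :: A2 =
          u :: v :: (B ++ p :: q :: (A1 ++ (z, w) :: A2)) := by intro u v; simp
      rw [s1] at e1 e2
      rw [e1, e2]
      unfold Fp
      simp only [List.length_append, List.length_cons] at hA
      rw [pr_take_swap hgx' A2 _ (Or.inr (by omega)), pr_drop_swap hgx' A2 _ (Or.inr (by omega))]
    · by_cases hzB : z ∈ B.map Prod.fst
      · obtain ⟨B1, w, B2, rfl, hB1, hB2⟩ := exists_split hzB hnB
        have e1 := F_eq h T Val (z := z) (w := w) (A := y :: x' :: B1) (B := B2 ++ p :: q :: A) (by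
          simp [hx', hy, hzx, hzy]
          simpa using hB1)
        have e2 := F_eq h T Val (z := z) (w := w) (A := x :: y :: B1) (B := B2 ++ p :: q :: A) (by
          simp [hx, hy, hzx, hzy]
          simpa using hB1)
        have s1 : ∀ u v : X × G, u :: v :: B1 ++ (z, w) :: (B2 ++ p :: q :: A) =
            u :: v :: (B1 ++ (z, w) :: B2 ++ p :: q :: A) := by intro u v; simp
        rw [s1] at e1 e2
        rw [e1, e2]
        unfold Fp
        simp only [List.length_append, List.length_cons] at hB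
        rw [pr_take_swap hgx' (B2 ++ p :: q :: A) B1 (Or.inl (by simp; omega)),
          pr_drop_swap hgx' (B2 ++ p :: q :: A) B1 (Or.inl (by simp; omega))]
      · rw [F_of_notMem, F_of_notMem]
        · simp [hx, hy, hp, hq, hzx, hzy, hzp, hzq]
          exact ⟨by simpa using hzB, by simpa using hzA⟩
        · simp [hx', hy, hp, hq, hzx, hzy, hzp, hzq]
          exact ⟨by simpa using hzB, by simpa using hzA⟩
  have hsum : ∑ z, |F h T Val z (y :: x' :: (B ++ p :: q :: A)) -
      F h T Val z (x :: y :: (B ++ p :: q :: A))| =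
      ∑ z ∈ ({x1, y1, p1, q1} : Finset X), |F h T Val z (y :: x' :: (B ++ p :: q :: A)) -
      F h T Val z (x :: y :: (B ++ p :: q :: A))| := by
    symm
    apply Finset.sum_subset (Finset.subset_univ _)
    intro z _ hz
    rw [hF0 z hz, sub_self, abs_zero]
  rw [hsum, Finset.sum_insert (by simp [hxy, hxp, hxq]), Finset.sum_insert (by simp [hyp, hyq]),
    Finset.sum_insert (by simp [hpq]), Finset.sum_singleton, hFx, hFy, hFp, hFq]
  have t1 : |(b1' - b3') / 2 + (b1 - b3) / 2| ≤ |b3' - b1'| / 2 + |b3 - b1| / 2 := by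
    refine (abs_add_le _ _).trans (le_of_eq ?_)
    rw [abs_div, abs_div, abs_sub_comm b1' b3', abs_sub_comm b1 b3, abs_two]
  have t2 : |(a3' - a2') / 2 + (c2 - c1) / 2| ≤ |a2' - a3'| / 2 + |c1 - c2| / 2 := by
    refine (abs_add_le _ _).trans (le_of_eq ?_)
    rw [abs_div, abs_div, abs_sub_comm a3' a2', abs_sub_comm c2 c1, abs_two]
  have t3 : |(c1' - c2') / 2| = |c1' - c2'| / 2 := by rw [abs_div, abs_two]
  have t4 : |(a2 - a3) / 2| = |a2 - a3| / 2 := by rw [abs_div, abs_two]
  rw [t3, t4]
  linarith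

/-- The other half twist. -/
theorem CoreHyp.tw_le [Fintype X] {x y : X × G} {L : List (X × G)} (hD : Dg (x :: y :: L)) :
    ∑ z, |F h T Val z ((y.1, gg T x * y.2) :: x :: L) - F h T Val z (x :: y :: L)| ≤ 1 := by
  have h1 := H.tw'_le (H.tw hD)
  have h2 : ((y.1, gg T x * y.2).1, (gg T x)⁻¹ * (y.1, gg T x * y.2).2) = y := by
    simp
  rw [h2] at h1
  refine le_trans (le_of_eq ?_) h1
  apply Finset.sum_congr rfl
  intro z _
  rw [abs_sub_comm]

theorem CoreHyp.rotate {L : List (X × G)} (hD : Dg L) (n : ℕ) : Dg (L.rotate n) := by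
  rw [List.rotate_eq_drop_append_take_mod]
  apply H.rotn
  rwa [List.take_append_drop]

theorem CoreHyp.F_rotate_n {L : List (X × G)} (hD : Dg L) (n : ℕ) (z : X) :
    F h T Val z (L.rotate n) = F h T Val z L := by
  induction n with
  | zero => simp
  | succ n ih =>
    have h1 := H.rotate hD n
    rw [← ih, ← List.rotate_rotate L n 1]
    cases hL : L.rotate n with
    | nil => rfl
    | cons p M =>
      rw [hL] at h1
      rw [List.rotate_cons_succ, List.rotate_zero]
      exact F_rotate h T Val (H.nodup h1) z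

end hyp

open Bp

/-- a rotated and conjugated star -/
theorem exists_of_TEq {T : X → G} {L : List (X × G)} {x : X} {g : G} {y : X} {k : G}
    {R : List (X × G)} (ht : TEq (L.map fun p => (p.1, gg T p)) ((x, g) :: (y, k) :: R)) :
    ∃ (c : G) (n : ℕ) (a b : X × G) (M : List (X × G)), L.rotate n = a :: b :: M ∧
      a.1 = x ∧ b.1 = y ∧ c * gg T a * c⁻¹ = g ∧ c * gg T b * c⁻¹ = k ∧
      cj c (M.map fun p => (p.1, gg T p)) = R := by
  obtain ⟨c, n, hn⟩ := ht
  unfold cj at hn
  rw [List.map_map, ← List.map_rotate] at hn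
  cases hL : L.rotate n with
  | nil => rw [hL] at hn; simp at hn
  | cons a M =>
    cases M with
    | nil => rw [hL] at hn; simp at hn
    | cons b M =>
      rw [hL] at hn
      simp only [List.map_cons, Function.comp_apply, List.cons.injEq, Prod.mk.injEq] at hn
      obtain ⟨⟨h1, h2⟩, ⟨h3, h4⟩, h5⟩ := hn
      refine ⟨c, n, a, b, M, hL, h1, h3, h2, h4, ?_⟩
      unfold cj
      rw [List.map_map]
      exact h5

theorem gg_conj (T : X → G) (b : X × G) (c : G) :
    gg T (b.1, c * b.2) = c * gg T b * c⁻¹ := by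
  simp only [gg]
  group

/-- **The core** from the geometric input and the antipode. -/
theorem core_of_hyp {h : ℕ} {G : Type} [Group G] {T : Fin (2 * h) → G}
    {Val : Fin (2 * h) → G → ℝ → Prop} {Dg : List (Fin (2 * h) × G) → Prop} {ε : ℝ}
    (H : CoreHyp h T Val Dg ε)
    (anti : ∀ L L' : List (Fin (2 * h) × G), Dg L → Dg L' →
      TEq (L'.map fun p => (p.1, gg T p)) (bar (L.map fun p => (p.1, gg T p))) →
      ∀ z, ∃ q : ℤ, F h T Val z L' = F h T Val z L + ((h : ℝ) - 1) / 2 + ((h : ℝ) - 1) * q) :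
    Core h (S := {L : List (Fin (2 * h) × G) // Dg L})
      (fun L => L.1.map fun p => (p.1, gg T p)) (fun L z => F h T Val z L.1) := by
  constructor
  · rintro ⟨L, hL⟩ x g y k R ht
    obtain ⟨c, n, a, b, M, h1, rfl, rfl, rfl, rfl, rfl⟩ := exists_of_TEq ht
    have hD : Dg (a :: b :: M) := h1 ▸ H.rotate hL n
    refine ⟨⟨_, H.tw hD⟩, ⟨c, ?_⟩, 0, ?_⟩
    · refine (fun e => e ▸ List.IsRotated.refl _ : ∀ {l l' : List (Fin (2 * h) × G)}, l = l' → l ~r l') ?_
      simp only [cj, List.map_cons, gg_conj]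
      rw [List.cons.injEq]
      refine ⟨?_, rfl⟩
      rw [Prod.mk.injEq]
      refine ⟨rfl, ?_⟩
      group
    · refine le_trans (le_of_eq ?_) (H.tw_le hD)
      apply Finset.sum_congr rfl
      intro z _
      rw [← h1, H.F_rotate_n hL n z, abs_sub_comm]
      simp
  · rintro ⟨L, hL⟩ x g y k R ht
    obtain ⟨c, n, a, b, M, h1, rfl, rfl, rfl, rfl, rfl⟩ := exists_of_TEq ht
    have hD : Dg (a :: b :: M) := h1 ▸ H.rotate hL n
    refine ⟨⟨_, H.tw' hD⟩, ⟨c, ?_⟩, 0, ?_⟩
    · refine (fun e => e ▸ List.IsRotated.refl _ : ∀ {l l' : List (Fin (2 * h) × G)}, l = l' → l ~r l') ?_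
      simp only [cj, List.map_cons, gg_conj]
      rw [List.cons.injEq, List.cons.injEq]
      refine ⟨rfl, ?_, rfl⟩
      rw [Prod.mk.injEq]
      refine ⟨rfl, ?_⟩
      group
    · refine le_trans (le_of_eq ?_) (H.tw'_le hD)
      apply Finset.sum_congr rfl
      intro z _
      rw [← h1, H.F_rotate_n hL n z, abs_sub_comm]
      simp
  · rintro ⟨L, hL⟩ ⟨L', hL'⟩ ht z
    exact anti L L' hL hL' ht z

end Vale.Agent.P040.H84
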