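import Vale.Agent.P040.Bp.Plan

/-!
# P040: the potentials of Hurwitz tuples, from the values `v_z(R)` of the selector

`T z` is the small loop of the leaf `z`, a framed star is a list of pairs `(z, w)` (leaf, path of
the arm), its loops are `g = w * T z * w⁻¹`.  `Val z R v` says that the closed curve with word `R`,
based at the leaf `z`, has the value `v` (relative to `z`).
-/

namespace Vale.Agent.P040.H84

variable {X G : Type*} [Group G]

/-- the loop of an arm -/
def gg (T : X → G) (p : X × G) : G := p.2 * T p.1 * p.2⁻¹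

/-- the product of the loops -/
def pr (T : X → G) (L : List (X × G)) : G := (L.map (gg T)).prod

@[simp] theorem pr_nil (T : X → G) : pr T [] = 1 := rfl

@[simp] theorem pr_cons (T : X → G) (p : X × G) (L : List (X × G)) :
    pr T (p :: L) = gg T p * pr T L := by simp [pr]

@[simp] theorem pr_append (T : X → G) (L M : List (X × G)) :
    pr T (L ++ M) = pr T L * pr T M := by simp [pr]

/-- The geometric input: values of closed curves, star diagrams (`Dg`, as framed lists). -/
structure CoreHyp (h : ℕ) (T : X → G) (Val : X → G → ℝ → Prop) (Dg : List (X × G) → Prop)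
    (ε : ℝ) : Prop where
  two_le : 2 ≤ h
  sgn : ε = 1 ∨ ε = -1
  uniq : ∀ {z R v v'}, Val z R v → Val z R v' → v = v'
  twist : ∀ {z R v}, Val z R v → Val z ((T z)⁻¹ * R * T z) (v + ε * (h - 1))
  cent : ∀ (z : X) (c : G), c * T z = T z * c → ∃ j : ℤ, c = T z ^ j
  rot : ∀ {p : X × G} {L}, Dg (p :: L) → Dg (L ++ [p])
  len : ∀ {L}, Dg L → L.length = 2 * h
  nodup : ∀ {L : List (X × G)}, Dg L → (L.map Prod.fst).Nodup
  prod : ∀ {L : List (X × G)}, Dg L → pr T L = 1
  tw : ∀ {p q : X × G} {L}, Dg (p :: q :: L) → Dg ((q.1, gg T p * q.2) :: p :: L)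
  tw' : ∀ {p q : X × G} {L}, Dg (p :: q :: L) → Dg (q :: (p.1, (gg T q)⁻¹ * p.2) :: L)
  tri : ∀ {a b c : X × G} {A B L : List (X × G)},
    Dg (a :: (A ++ b :: (B ++ c :: L))) → A.length + B.length + 2 = h →
    ∃ c1 c2 a2 a3 b3 b1 : ℝ,
      Val c.1 (c.2⁻¹ * (pr T A * gg T b * pr T B) * c.2) c1 ∧
      Val c.1 (c.2⁻¹ * (gg T a * pr T A * pr T B) * c.2) c2 ∧
      Val a.1 (a.2⁻¹ * (pr T A * pr T B * gg T c) * a.2) a2 ∧
      Val a.1 (a.2⁻¹ * (pr T A * gg T b * pr T B) * a.2) a3 ∧
      Val b.1 (b.2⁻¹ * (pr T B * gg T a * pr T A) * b.2) b3 ∧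
      Val b.1 (b.2⁻¹ * (pr T B * gg T c * pr T A) * b.2) b1 ∧
      |c1 - c2| + |a2 - a3| + |b3 - b1| ≤ 1

open Classical in
/-- the value of the curve `R` at the leaf `z` -/
noncomputable def vv (Val : X → G → ℝ → Prop) (z : X) (R : G) : ℝ :=
  if h : ∃ v, Val z R v then h.choose else 0

/-- the potential of a star, pointed at the arm `p`, followed by the arms `M` -/
noncomputable def Fp (h : ℕ) (T : X → G) (Val : X → G → ℝ → Prop) (p : X × G)
    (M : List (X × G)) : ℝ :=
  (vv Val p.1 (p.2⁻¹ * pr T (M.take (h - 1)) * p.2) +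
    vv Val p.1 (p.2⁻¹ * pr T (M.drop h) * p.2)) / 2

open Classical in
/-- the potential at the leaf `z` of a star -/
noncomputable def F (h : ℕ) (T : X → G) (Val : X → G → ℝ → Prop) (z : X)
    (L : List (X × G)) : ℝ :=
  match L.span (fun p => decide (p.1 ≠ z)) with
  | (A, p :: B) => Fp h T Val p (B ++ A)
  | (_, []) => 0

theorem F_eq (h : ℕ) (T : X → G) (Val : X → G → ℝ → Prop) {z : X} {w : G}
    {A B : List (X × G)} (hz : z ∉ A.map Prod.fst) :
    F h T Val z (A ++ (z, w) :: B) = Fp h T Val (z, w) (B ++ A) := by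
  classical
  have h1 : ∀ A : List (X × G), z ∉ A.map Prod.fst →
      (A ++ (z, w) :: B).span (fun p => decide (p.1 ≠ z)) = (A, (z, w) :: B) := by
    intro A
    induction A with
    | nil => intro _; rw [List.nil_append, List.span_eq_takeWhile_dropWhile]; simp
    | cons p A ih =>
      intro hA
      rw [List.span_eq_takeWhile_dropWhile] at ih ⊢
      have hp : p.1 ≠ z := by rintro rfl; simp at hA
      have hA' : z ∉ A.map Prod.fst := fun hh => hA (by simp only [List.map_cons]; exact List.mem_cons_of_mem _ hh)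
      have ih' := ih hA'
      rw [Prod.mk.injEq] at ih'
      simp only [List.cons_append, Prod.mk.injEq]
      rw [List.takeWhile_cons, List.dropWhile_cons]
      simp only [ne_eq, hp, not_false_eq_true, decide_true, ↓reduceIte]
      refine ⟨?_, ?_⟩
      · rw [List.cons.injEq]; exact ⟨rfl, ih'.1⟩
      · exact ih'.2
  unfold F
  rw [h1 A hz]

theorem F_of_notMem (h : ℕ) (T : X → G) (Val : X → G → ℝ → Prop) {z : X}
    {L : List (X × G)} (hz : z ∉ L.map Prod.fst) : F h T Val z L = 0 := by
  classical
  have h1 : L.span (fun p => decide (p.1 ≠ z)) = (L, []) := by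
    rw [List.span_eq_takeWhile_dropWhile]
    have h2 : ∀ p ∈ L, decide (p.1 ≠ z) = true := by
      intro p hp
      rw [decide_eq_true_eq]
      rintro rfl
      exact hz (List.mem_map_of_mem hp)
    have h3 : ∀ L : List (X × G), (∀ p ∈ L, decide (p.1 ≠ z) = true) →
        L.takeWhile (fun p => decide (p.1 ≠ z)) = L ∧ L.dropWhile (fun p => decide (p.1 ≠ z)) = [] := by
      intro L
      induction L with
      | nil => intro _; exact ⟨rfl, rfl⟩
      | cons p L ih =>
        intro hL
        have hp := hL p (List.mem_cons_self)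
        have := ih fun q hq => hL q (List.mem_cons_of_mem _ hq)
        rw [List.takeWhile_cons, List.dropWhile_cons, if_pos hp, if_pos hp, this.1, this.2]
        exact ⟨rfl, rfl⟩
    rw [(h3 L h2).1, (h3 L h2).2]
  unfold F
  rw [h1]

omit [Group G] in
/-- splitting a framed star at a leaf -/
theorem exists_split {L : List (X × G)} {z : X} (hz : z ∈ L.map Prod.fst)
    (hn : (L.map Prod.fst).Nodup) :
    ∃ (A : List (X × G)) (w : G) (B : List (X × G)), L = A ++ (z, w) :: B ∧
      z ∉ A.map Prod.fst ∧ z ∉ B.map Prod.fst := by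
  rw [List.mem_map] at hz
  obtain ⟨⟨z', w⟩, hp, rfl⟩ := hz
  obtain ⟨A, B, rfl⟩ := List.append_of_mem hp
  refine ⟨A, w, B, rfl, ?_, ?_⟩
  · intro hA
    rw [List.map_append, List.nodup_append] at hn
    exact hn.2.2 _ hA _ (by simp) rfl
  · intro hB
    rw [List.map_append, List.nodup_append, List.map_cons, List.nodup_cons] at hn
    exact hn.2.1.1 hB

theorem F_rotate (h : ℕ) (T : X → G) (Val : X → G → ℝ → Prop) {p : X × G}
    {L : List (X × G)} (hn : ((p :: L).map Prod.fst).Nodup) (z : X) :
    F h T Val z (L ++ [p]) = F h T Val z (p :: L) := by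
  by_cases hz : z ∈ (p :: L).map Prod.fst
  · by_cases hpz : p.1 = z
    · subst hpz
      have h1 : p.1 ∉ L.map Prod.fst := by
        rw [List.map_cons, List.nodup_cons] at hn; exact hn.1
      have e1 : F h T Val p.1 (L ++ (p.1, p.2) :: []) = _ := F_eq h T Val h1
      have e2 : F h T Val p.1 ([] ++ (p.1, p.2) :: L) = _ := F_eq h T Val (by simp)
      rw [List.nil_append] at e2
      rw [show (p :: L) = (p.1, p.2) :: L from rfl, e2,
        show L ++ [p] = L ++ (p.1, p.2) :: [] from rfl, e1]
      simp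
    · have hz' : z ∈ L.map Prod.fst := by
        rw [List.map_cons, List.mem_cons] at hz
        rcases hz with h1 | h1
        · exact absurd h1.symm hpz
        · exact h1
      have hn' : (L.map Prod.fst).Nodup := by
        rw [List.map_cons, List.nodup_cons] at hn; exact hn.2
      obtain ⟨A, w, B, rfl, hA, hB⟩ := exists_split hz' hn'
      rw [List.append_assoc, List.cons_append, F_eq h T Val hA]
      have h2 : z ∉ (p :: A).map Prod.fst := by
        rw [List.map_cons, List.mem_cons]
        rintro (h3 | h3)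
        · exact hpz h3.symm
        · exact hA h3
      have e2 := F_eq h T Val (z := z) (w := w) (A := p :: A) (B := B) h2
      rw [List.cons_append] at e2
      rw [e2, List.append_assoc]
      rfl
  · rw [F_of_notMem h T Val hz, F_of_notMem h T Val]
    simpa [or_comm] using hz

section hyp

variable {h : ℕ} {T : X → G} {Val : X → G → ℝ → Prop} {Dg : List (X × G) → Prop} {ε : ℝ}
  (H : CoreHyp h T Val Dg ε)

include H

theorem CoreHyp.vv_eq {z : X} {R : G} {v : ℝ} (hv : Val z R v) : vv Val z R = v := by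
  unfold vv
  rw [dif_pos ⟨v, hv⟩]
  exact H.uniq (Exists.choose_spec (⟨v, hv⟩ : ∃ v, Val z R v)) hv

theorem CoreHyp.rotn {M N : List (X × G)} (hD : Dg (M ++ N)) : Dg (N ++ M) := by
  induction M generalizing N with
  | nil => simpa using hD
  | cons p M ih =>
    have h1 : Dg ((M ++ N) ++ [p]) := H.rot hD
    rw [List.append_assoc] at h1
    have h2 := ih h1
    simpa using h2


end hyp

end Vale.Agent.P040.H84
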