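import Vale.Agent.P040.H251.SelInst
import Vale.Agent.P040.H105.Star

/-!
# P040: the data of the leaves and the values `Val z R v`
-/

namespace Vale.Agent.P040.H84

open P040H251

/-- Leaves on the spine with the pages of their masses: `h` leaves in each page. -/
structure LData (h : ℕ) where
  pos : Fin (2 * h) → ℝ
  inj : Function.Injective pos
  pg : Fin (2 * h) → Bool
  bal : ∀ b, (Finset.univ.filter fun i => pg i = b).card = h
  two_le : 2 ≤ h

namespace LData

variable {h : ℕ} (P : LData h)

/-- the number of leaves to the left of `x` -/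
noncomputable def rk (x : ℝ) : ℕ := (Finset.univ.filter fun i => P.pos i < x).card

theorem rk_mono : Monotone P.rk := by
  intro x y hxy
  apply Finset.card_le_card
  intro i hi
  rw [Finset.mem_filter] at hi ⊢
  exact ⟨hi.1, lt_of_lt_of_le hi.2 hxy⟩

theorem rk_le (x : ℝ) : P.rk x ≤ 2 * h := by
  refine (Finset.card_le_univ _).trans ?_
  simp

theorem rk_pos_lt (i : Fin (2 * h)) : P.rk (P.pos i) < 2 * h := by
  have h1 : (Finset.univ.filter fun j => P.pos j < P.pos i) ⊂ Finset.univ := by
    rw [Finset.ssubset_univ_iff]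
    intro hh
    have : i ∈ Finset.univ.filter fun j => P.pos j < P.pos i := by rw [hh]; simp
    simp at this
  have := Finset.card_lt_card h1
  simpa [rk] using this

theorem rk_lt_iff (i : Fin (2 * h)) (x : ℝ) : P.rk (P.pos i) < P.rk x ↔ P.pos i < x := by
  constructor
  · intro hh
    by_contra hc
    exact absurd (P.rk_mono (not_lt.1 hc)) (not_le.2 hh)
  · intro hh
    apply Finset.card_lt_card
    rw [Finset.ssubset_iff_of_subset]
    · exact ⟨i, by simpa using hh, by simp⟩
    · intro j hj
      rw [Finset.mem_filter] at hj ⊢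
      exact ⟨hj.1, hj.2.trans hh⟩

theorem rk_congr {a b : ℝ} (hab : a ≤ b) (hn : ∀ x, P.pos x ∉ Set.Ico a b) :
    P.rk a = P.rk b := by
  unfold rk
  congr 1
  apply Finset.filter_congr
  intro i _
  constructor
  · intro hh; exact lt_of_lt_of_le hh hab
  · intro hh
    by_contra hc
    exact hn i ⟨not_lt.1 hc, hh⟩

theorem rk_succ (i : Fin (2 * h)) {a : ℝ} (hia : P.pos i < a)
    (hn : ∀ y, P.pos y ∉ Set.Ioc (P.pos i) a) : P.rk a = P.rk (P.pos i) + 1 := by
  unfold rk
  have h1 : (Finset.univ.filter fun j => P.pos j < a) =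
      insert i (Finset.univ.filter fun j => P.pos j < P.pos i) := by
    ext j
    rw [Finset.mem_insert, Finset.mem_filter, Finset.mem_filter]
    constructor
    · rintro ⟨-, hh⟩
      rcases lt_trichotomy (P.pos j) (P.pos i) with h2 | h2 | h2
      · exact Or.inr ⟨Finset.mem_univ _, h2⟩
      · exact Or.inl (P.inj h2)
      · exact absurd ⟨h2, hh.le⟩ (hn j)
    · rintro (rfl | ⟨-, hh⟩)
      · exact ⟨Finset.mem_univ _, hia⟩
      · exact ⟨Finset.mem_univ _, hh.trans hia⟩
  rw [h1, Finset.card_insert_of_notMem (by simp)]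

/-- the number of leaves of page `b` and rank `< j` -/
noncomputable def cnt (b : Bool) (j : ℕ) : ℕ :=
  (Finset.univ.filter fun i => P.pg i = b ∧ P.rk (P.pos i) < j).card

theorem cnt_mono (b : Bool) : Monotone (P.cnt b) := by
  intro j k hjk
  apply Finset.card_le_card
  intro i hi
  rw [Finset.mem_filter] at hi ⊢
  exact ⟨hi.1, hi.2.1, lt_of_lt_of_le hi.2.2 hjk⟩

theorem cnt_le (b : Bool) (j : ℕ) : P.cnt b j ≤ h := by
  refine le_trans ?_ (P.bal b).le
  apply Finset.card_le_card
  intro i hi
  rw [Finset.mem_filter] at hi ⊢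
  exact ⟨hi.1, hi.2.1⟩

/-- the labels and masses of the (uncut) spine -/
noncomputable def D0 : Dat ℝ where
  lab := P.rk
  mono := P.rk_mono
  C := fun b j => P.cnt b j
  Cmono := fun b j k hjk => Nat.cast_le.2 (P.cnt_mono b hjk)
  M := (h : ℝ) / 2
  pos := by
    have : (2 : ℝ) ≤ h := by exact_mod_cast P.two_le
    linarith
  tot := fun b i j => by
    have h1 : (P.cnt b j : ℝ) ≤ h := by exact_mod_cast P.cnt_le b j
    have h2 : (0 : ℝ) ≤ P.cnt b i := Nat.cast_nonneg _
    linarith

/-- the letters of the gaps; the gap through infinity is one letter -/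
noncomputable def G0 : Pst.Gaps P.pos ℕ where
  gap := fun x => P.rk x % (2 * h)
  lt := fun i => P.rk (P.pos i)
  rt := fun i => (P.rk (P.pos i) + 1) % (2 * h)
  const := fun a b hab hn => by
    rw [P.rk_congr hab fun x hx => hn x ⟨hx.1, hx.2.le⟩]
  left := fun x a ha hn => by
    rw [P.rk_congr ha.le hn, Nat.mod_eq_of_lt (P.rk_pos_lt x)]
  right := fun x a ha hn => by
    rw [P.rk_succ x ha hn]

/-- the loop around a leaf -/
noncomputable def T0 (z : Fin (2 * h)) : FreeGroup ℕ :=
  FreeGroup.of (P.G0.lt z) * (FreeGroup.of (P.G0.rt z))⁻¹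

/-- `r` and `l` are the two points next to the leaf `z`, the list is read from `r`; the second
point next to the leaf is `l` (the leaf is reached from below) or the last point is `l` (the leaf
is reached from above). -/
structure Fat (z : Fin (2 * h)) (r l : ℝ) (L : List ℝ) : Prop where
  fl : L.head? = some l ∨ L.getLast? = some l
  lz : l < P.pos z
  zr : P.pos z < r
  emp : ∀ w ∈ L, ¬ (l < w ∧ w < r)
  rkl : P.rk l = P.rk (P.pos z)
  rkr : P.rk r = P.rk (P.pos z) + 1

/-- **The values.** `Val z R v`: there is a closed curve, read from the point to the right of the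
leaf `z` where it crosses upwards, with the word `R`, and the selector has the value `v` relative
to this point. -/
def Val (z : Fin (2 * h)) (R : FreeGroup ℕ) (v : ℝ) : Prop :=
  ∃ (r l : ℝ) (L : List ℝ) (E : ℝ → ℝ), Crv P.D0 true (r :: L) E ∧ P.Fat z r l L ∧
    Pst.wd P.G0 true L = R * FreeGroup.of (P.G0.lt z) ∧
    v = selApi.val true (r :: L) E - E r

end LData

end Vale.Agent.P040.H84
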