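import Vale.Agent.P040.H84.Uniq
import Vale.Agent.P040.H610.Inst
import Vale.Agent.P040.H908.TriCore

/-!
# P040: the machine

All inputs together: `Bp.Machine` (potentials of stars with the antipodal inequality).
-/

set_option autoImplicit false

namespace Vale.Agent.P040.H84

open Pst P040H251 Vale.Agent.P040.H906 Bp ToCrv

variable {h : ℕ}

theorem uniq (P : LData h) : Uniq P := fun h1 h2 => LData.Val.uniq h1 h2

theorem twist (P : LData h) : Twist P (-1) := fun h1 => LData.Val.twist h1

/-- **The instance**, unconditional. -/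
theorem coreHyp (P : LData h) : CoreHyp h (sl P.G0) P.Val (Dgs P.pos P.G0) (-1) where
  two_le := P.two_le
  sgn := Or.inr rfl
  uniq := fun h1 h2 => LData.Val.uniq h1 h2
  twist := fun h1 => LData.Val.twist h1
  cent := by
    intro z c hc
    refine H112.cent_mul_inv (lt_ne_rt P z) ?_
    have hc' : c * sl P.G0 z = sl P.G0 z * c := hc
    show c * sl P.G0 z * c⁻¹ = sl P.G0 z
    rw [hc']
    group
  rot := fun hD => hD.rot
  len := fun hD => by simpa using hD.len
  nodup := fun hD => hD.nodup
  prod := fun hD => hD.prod
  tw := fun hD => hD.tw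
  tw' := fun hD => hD.tw'
  tri := fun hD hl => H908.tri_core P hD hl

theorem selInput (hh : 2 ≤ h) (leaf : Fin (2 * h) → ℝ) (hl : Function.Injective leaf) :
    SelInput h leaf :=
  ⟨ℕ, (mkData hh leaf hl).G0, (mkData hh leaf hl).Val, -1, cyc_G0 _, coreHyp _,
    fun _ _ hL hL' htq z => (coreHyp _).anti hL hL' htq z⟩

/-- **The machine.** -/
theorem machine : Machine := machine_of_input fun _ hh leaf hl => selInput hh leaf hl

end Vale.Agent.P040.H84
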