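import Vale.Agent.P040.H251.Class

/-!
# P040: insertion of an empty bigon next to a point of a closed curve
-/

set_option linter.unusedSectionVars false

namespace P040H251

open Vale.Agent.P040.H906 Finset

variable {α : Type*} [LinearOrder α] [Inhabited α]

/-- the page of the pair `(k, k+1)` of a cyclic list -/
def pgk (s : Bool) (k : ℕ) : Bool := if k % 2 = 0 then s else !s

theorem pgk_succ (s : Bool) (k : ℕ) : pgk s (k + 1) = !pgk s k := by
  unfold pgk
  rcases Nat.mod_two_eq_zero_or_one k with h | h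
  · rw [if_pos h, if_neg (by omega)]
  · rw [if_pos (by omega), if_neg (by omega), Bool.not_not]

theorem f_next {L : List α} (h : CL L) (s : Bool) {k : ℕ} (hk : k + 1 < L.length) :
    fO s L (pgk s k) (g L k) = g L (k + 1) := by
  have hk' : k < L.length := by omega
  rw [f_g h s _ hk']
  unfold pgk
  rcases Nat.mod_two_eq_zero_or_one k with h0 | h0
  · rw [if_pos h0]
    have e : uI k = k + 1 := by unfold uI; rw [if_pos h0]
    cases s
    · show g L (uI k) = _; rw [e]
    · show g L (uI k) = _; rw [e]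
  · rw [if_neg (by omega)]
    have e : lI L.length k = k + 1 := by unfold lI; rw [if_pos h0, if_neg (by omega)]
    cases s
    · show g L (lI L.length k) = _; rw [e]
    · show g L (lI L.length k) = _; rw [e]

theorem g_at (A B : List α) (a : α) : g (A ++ a :: B) A.length = a := by
  unfold g
  rw [List.getD_append_right _ _ _ _ le_rfl]
  simp

section ins

variable {D : Dat α} {s : Bool} {A B : List α} {P Q a a' : α} {E : α → ℝ}

theorem CL.ins (h : CL (A ++ P :: Q :: B)) (ha : a ∉ A ++ P :: Q :: B)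
    (ha' : a' ∉ A ++ P :: Q :: B) (hne : a ≠ a') : CL (A ++ P :: a :: a' :: Q :: B) := by
  refine ⟨?_, ?_, ?_⟩
  · have h1 := h.nodup
    have h2 : (a :: a' :: (A ++ P :: Q :: B)).Nodup := by
      rw [List.nodup_cons, List.nodup_cons]
      exact ⟨by rw [List.mem_cons]; push Not; exact ⟨hne, ha⟩, ha', h1⟩
    refine List.Perm.nodup ?_ h2
    have e1 : A ++ P :: a :: a' :: Q :: B = (A ++ [P]) ++ (a :: a' :: (Q :: B)) := by simp
    have e2 : a :: a' :: (A ++ P :: Q :: B) = (a :: a' :: ([] : List α)) ++ ((A ++ [P]) ++ (Q :: B)) := by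
      simp
    rw [e1, e2]
    have e3 : (A ++ [P]) ++ (a :: a' :: (Q :: B)) = (A ++ [P]) ++ ([a, a'] ++ (Q :: B)) := by simp
    rw [e3]
    have e4 : [a, a'] ++ ((A ++ [P]) ++ (Q :: B)) = ([a, a'] ++ (A ++ [P])) ++ (Q :: B) := by
      simp
    have e5 : (A ++ [P]) ++ ([a, a'] ++ (Q :: B)) = ((A ++ [P]) ++ [a, a']) ++ (Q :: B) := by
      simp
    rw [e4, e5]
    exact List.Perm.append_right _ List.perm_append_comm
  · have := h.even
    simp only [List.length_append, List.length_cons] at this ⊢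
    omega
  · simp

/-- the partner functions after the insertion -/
theorem ins_f (h : CL (A ++ P :: Q :: B)) (ha : a ∉ A ++ P :: Q :: B)
    (ha' : a' ∉ A ++ P :: Q :: B) (hne : a ≠ a') :
    (fO s (A ++ P :: Q :: B) (pgk s A.length) P = Q) ∧
    (fO s (A ++ P :: Q :: B) (pgk s A.length) Q = P) ∧
    (fO s (A ++ P :: a :: a' :: Q :: B) (pgk s A.length) P = a) ∧
    (fO s (A ++ P :: a :: a' :: Q :: B) (pgk s A.length) a = P) ∧
    (fO s (A ++ P :: a :: a' :: Q :: B) (pgk s A.length) a' = Q) ∧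
    (fO s (A ++ P :: a :: a' :: Q :: B) (pgk s A.length) Q = a') ∧
    (fO s (A ++ P :: a :: a' :: Q :: B) (!pgk s A.length) a = a') ∧
    (fO s (A ++ P :: a :: a' :: Q :: B) (!pgk s A.length) a' = a) ∧
    (∀ x ∈ A ++ P :: Q :: B, fO s (A ++ P :: a :: a' :: Q :: B) (!pgk s A.length) x =
      fO s (A ++ P :: Q :: B) (!pgk s A.length) x) ∧
    (∀ x ∈ A ++ P :: Q :: B, x ≠ P → x ≠ Q →
      fO s (A ++ P :: a :: a' :: Q :: B) (pgk s A.length) x =
      fO s (A ++ P :: Q :: B) (pgk s A.length) x) := by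
  have h' : CL (A ++ P :: a :: a' :: Q :: B) := h.ins ha ha' hne
  have lenL : (A ++ P :: Q :: B).length = A.length + B.length + 2 := by
    simp only [List.length_append, List.length_cons]; omega
  have lenL' : (A ++ P :: a :: a' :: Q :: B).length = A.length + B.length + 4 := by
    simp only [List.length_append, List.length_cons]; omega
  have gP : g (A ++ P :: Q :: B) A.length = P := g_at _ _ _
  have gQ : g (A ++ P :: Q :: B) (A.length + 1) = Q := g_b _ _ _ _
  have gP' : g (A ++ P :: a :: a' :: Q :: B) A.length = P := g_at _ _ _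
  have ga : g (A ++ P :: a :: a' :: Q :: B) (A.length + 1) = a := g_b _ _ _ _
  have ga' : g (A ++ P :: a :: a' :: Q :: B) (A.length + 2) = a' := by
    have := g_at (A ++ [P, a]) (Q :: B) a'
    simpa using this
  have gQ' : g (A ++ P :: a :: a' :: Q :: B) (A.length + 3) = Q := by
    have := g_at (A ++ [P, a, a']) B Q
    simpa using this
  have f1 : fO s (A ++ P :: Q :: B) (pgk s A.length) P = Q := by
    have := f_next h s (k := A.length) (by omega)
    rwa [gP, gQ] at this
  have f2 : fO s (A ++ P :: a :: a' :: Q :: B) (pgk s A.length) P = a := by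
    have := f_next h' s (k := A.length) (by omega)
    rwa [gP', ga] at this
  have f3 : fO s (A ++ P :: a :: a' :: Q :: B) (!pgk s A.length) a = a' := by
    have := f_next h' s (k := A.length + 1) (by omega)
    rwa [ga, ga', pgk_succ] at this
  have f4 : fO s (A ++ P :: a :: a' :: Q :: B) (pgk s A.length) a' = Q := by
    have := f_next h' s (k := A.length + 2) (by omega)
    rwa [ga', gQ', pgk_succ, pgk_succ, Bool.not_not] at this
  have mP : P ∈ A ++ P :: Q :: B := by simp
  have mP' : P ∈ A ++ P :: a :: a' :: Q :: B := by simp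
  have ma : a ∈ A ++ P :: a :: a' :: Q :: B := by simp
  have ma' : a' ∈ A ++ P :: a :: a' :: Q :: B := by simp
  have f1' : fO s (A ++ P :: Q :: B) (pgk s A.length) Q = P := by
    have := f_f h s (pgk s A.length) mP
    rwa [f1] at this
  have f2' : fO s (A ++ P :: a :: a' :: Q :: B) (pgk s A.length) a = P := by
    have := f_f h' s (pgk s A.length) mP'
    rwa [f2] at this
  have f3' : fO s (A ++ P :: a :: a' :: Q :: B) (!pgk s A.length) a' = a := by
    have := f_f h' s (!pgk s A.length) ma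
    rwa [f3] at this
  have f4' : fO s (A ++ P :: a :: a' :: Q :: B) (pgk s A.length) Q = a' := by
    have := f_f h' s (pgk s A.length) ma'
    rwa [f4] at this
  have hdel : ∀ b, ∀ x ∈ A ++ P :: Q :: B, fO s (A ++ P :: Q :: B) b x =
      spl (fO s (A ++ P :: a :: a' :: Q :: B) b) a a' x := by
    intro b x hx
    have e1 : A ++ P :: a :: a' :: Q :: B = (A ++ [P]) ++ a :: a' :: (Q :: B) := by simp
    have e2 : A ++ P :: Q :: B = (A ++ [P]) ++ (Q :: B) := by simp
    rw [e1] at h' ⊢
    rw [e2] at hx ⊢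
    exact f_del h' s b hx
  have hmem : ∀ x ∈ A ++ P :: Q :: B, x ∈ A ++ P :: a :: a' :: Q :: B := by
    intro x hx
    simp only [List.mem_append, List.mem_cons] at hx ⊢
    tauto
  refine ⟨f1, f1', f2, f2', f4, f4', f3, f3', ?_, ?_⟩
  · intro x hx
    rw [hdel _ x hx]
    unfold spl
    rw [if_neg, if_neg]
    · intro hh
      apply ha
      have := f_f h' s (!pgk s A.length) (hmem x hx)
      rw [hh, f3'] at this
      rw [this]; exact hx
    · intro hh
      apply ha'
      have := f_f h' s (!pgk s A.length) (hmem x hx)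
      rw [hh, f3] at this
      rw [this]; exact hx
  · intro x hx hxP hxQ
    rw [hdel _ x hx]
    unfold spl
    rw [if_neg, if_neg]
    · intro hh
      apply hxQ
      have := f_f h' s (pgk s A.length) (hmem x hx)
      rw [hh, f4] at this
      exact this.symm
    · intro hh
      apply hxP
      have := f_f h' s (pgk s A.length) (hmem x hx)
      rw [hh, f2'] at this
      exact this.symm

/-- the new points are next to `P`, and `a` is nearer -/
def Next (L : List α) (P a a' : α) : Prop :=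
  (a' < a ∧ a < P ∧ ∀ w ∈ L, ¬ (a' < w ∧ w < P)) ∨ (P < a ∧ a < a' ∧ ∀ w ∈ L, ¬ (P < w ∧ w < a'))

/-- comparison of the new points with the old ones -/
theorem Next.cmp {L : List α} (h : Next L P a a') (ha : a ∉ L) (ha' : a' ∉ L) {x : α}
    (hx : x ∈ L) (hxP : x ≠ P) :
    (x < a ↔ x < P) ∧ (a < x ↔ P < x) ∧ (x < a' ↔ x < P) ∧ (a' < x ↔ P < x) := by
  have h1 : x ≠ a := fun hh => ha (hh ▸ hx)
  have h2 : x ≠ a' := fun hh => ha' (hh ▸ hx)
  rcases h with ⟨k1, k2, k3⟩ | ⟨k1, k2, k3⟩
  · have k := k3 x hx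
    rcases lt_or_gt_of_ne hxP with hlt | hlt
    · have h3 : x < a' := by
        rcases lt_or_gt_of_ne h2 with hh | hh
        · exact hh
        · exact absurd ⟨hh, hlt⟩ k
      exact ⟨⟨fun _ => hlt, fun _ => h3.trans k1⟩,
        ⟨fun hh => absurd (h3.trans k1) hh.not_gt, fun hh => absurd hlt hh.not_gt⟩,
        ⟨fun _ => hlt, fun _ => h3⟩, ⟨fun hh => absurd h3 hh.not_gt, fun hh => absurd hlt hh.not_gt⟩⟩
    · have h3 : a < x := k2.trans hlt
      have h4 : a' < x := k1.trans h3
      exact ⟨⟨fun hh => absurd h3 hh.not_gt, fun hh => absurd hlt hh.not_gt⟩,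
        ⟨fun _ => hlt, fun _ => h3⟩, ⟨fun hh => absurd h4 hh.not_gt, fun hh => absurd hlt hh.not_gt⟩,
        ⟨fun _ => hlt, fun _ => h4⟩⟩
  · have k := k3 x hx
    rcases lt_or_gt_of_ne hxP with hlt | hlt
    · have h3 : x < a := hlt.trans k1
      have h4 : x < a' := h3.trans k2
      exact ⟨⟨fun _ => hlt, fun _ => h3⟩,
        ⟨fun hh => absurd h3 hh.not_gt, fun hh => absurd hlt hh.not_gt⟩,
        ⟨fun _ => hlt, fun _ => h4⟩, ⟨fun hh => absurd h4 hh.not_gt, fun hh => absurd hlt hh.not_gt⟩⟩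
    · have h3 : a' < x := by
        rcases lt_or_gt_of_ne h2 with hh | hh
        · exact absurd ⟨hlt, hh⟩ k
        · exact hh
      have h4 : a < x := k2.trans h3
      exact ⟨⟨fun hh => absurd h4 hh.not_gt, fun hh => absurd hlt hh.not_gt⟩,
        ⟨fun _ => hlt, fun _ => h4⟩, ⟨fun hh => absurd h3 hh.not_gt, fun hh => absurd hlt hh.not_gt⟩,
        ⟨fun _ => hlt, fun _ => h3⟩⟩

theorem cyc_rot {x y z : α} : Cyc x y z ↔ Cyc y z x := by
  unfold Cyc; tauto

theorem ins_planar (h : CL (A ++ P :: Q :: B)) (hpl : Planar s (A ++ P :: Q :: B))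
    (ha : a ∉ A ++ P :: Q :: B) (ha' : a' ∉ A ++ P :: Q :: B)
    (hN : Next (A ++ P :: Q :: B) P a a') : Planar s (A ++ P :: a :: a' :: Q :: B) := by
  have hne : a ≠ a' := by
    rcases hN with k | k
    · exact k.1.ne'
    · exact k.2.1.ne
  obtain ⟨e1, e2, e3, e4, e5, e6, e7, e8, e9, e10⟩ := ins_f (s := s) h ha ha' hne
  have hPL : P ∈ A ++ P :: Q :: B := by simp
  have hQL : Q ∈ A ++ P :: Q :: B := by simp
  have hmem := fun b x (hx : x ∈ A ++ P :: Q :: B) => f_mem h s b hx
  have hinv := fun b x (hx : x ∈ A ++ P :: Q :: B) => f_f h s b hx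
  have hfne := fun b x (hx : x ∈ A ++ P :: Q :: B) => f_ne h s b hx
  have hmemL' : ∀ x ∈ A ++ P :: a :: a' :: Q :: B, x = a ∨ x = a' ∨ x ∈ A ++ P :: Q :: B := by
    intro x hx
    simp only [List.mem_append, List.mem_cons] at hx ⊢
    tauto
  have hcmp := fun x (hx : x ∈ A ++ P :: Q :: B) (hxP : x ≠ P) => hN.cmp ha ha' hx hxP
  have hPa : P ≠ a := fun hh => ha (hh ▸ hPL)
  have hPa' : P ≠ a' := fun hh => ha' (hh ▸ hPL)
  generalize hL : A ++ P :: Q :: B = L at *
  generalize hL' : A ++ P :: a :: a' :: Q :: B = L' at *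
  generalize hb : pgk s A.length = b at *
  have hPQ : P ≠ Q := by
    intro hh
    have := hfne b P hPL
    rw [e1] at this
    exact this hh.symm
  -- replacing a new point by `P`
  have c1 : ∀ x ∈ L, ∀ y ∈ L, x ≠ P → y ≠ P → (Cyc x a y ↔ Cyc x P y) := by
    intro x hx y hy hxP hyP
    obtain ⟨x1, x2, x3, x4⟩ := hcmp x hx hxP
    obtain ⟨y1, y2, y3, y4⟩ := hcmp y hy hyP
    unfold Cyc
    rw [x1, y2]
  have c2 : ∀ x ∈ L, ∀ y ∈ L, x ≠ P → y ≠ P → (Cyc x a' y ↔ Cyc x P y) := by
    intro x hx y hy hxP hyP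
    obtain ⟨x1, x2, x3, x4⟩ := hcmp x hx hxP
    obtain ⟨y1, y2, y3, y4⟩ := hcmp y hy hyP
    unfold Cyc
    rw [x3, y4]
  have c3 : ∀ x ∈ L, ∀ y ∈ L, x ≠ P → y ≠ P → (Cyc a x y ↔ Cyc P x y) := by
    intro x hx y hy hxP hyP
    exact ((cyc_rot.trans cyc_rot).trans (c1 y hy x hx hyP hxP)).trans (cyc_rot.trans cyc_rot).symm
  have c4 : ∀ x ∈ L, ∀ y ∈ L, x ≠ P → y ≠ P → (Cyc a' x y ↔ Cyc P x y) := by
    intro x hx y hy hxP hyP
    exact ((cyc_rot.trans cyc_rot).trans (c2 y hy x hx hyP hxP)).trans (cyc_rot.trans cyc_rot).symm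
  -- two of the three points of the cluster and a third point
  have T : ∀ w ∈ L, w ≠ P → (Cyc P w a ↔ a' < a) ∧ (Cyc a w P ↔ a < a') ∧ (Cyc a w a' ↔ a' < a) ∧
      (Cyc a' w a ↔ a < a') ∧ (Cyc a' w P ↔ a < a') ∧ (Cyc P w a' ↔ a' < a) := by
    intro w hw hwP
    obtain ⟨x1, x2, x3, x4⟩ := hcmp w hw hwP
    rcases hN with ⟨k1, k2, -⟩ | ⟨k1, k2, -⟩
    · have k3 := k1.trans k2
      rcases lt_or_gt_of_ne hwP with hlt | hlt
      · simp only [Cyc, x1, x2, x3, x4, k1, k2, k3, k1.not_gt, k2.not_gt, k3.not_gt, hlt,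
          hlt.not_gt]
        simp
      · simp only [Cyc, x1, x2, x3, x4, k1, k2, k3, k1.not_gt, k2.not_gt, k3.not_gt, hlt,
          hlt.not_gt]
        simp
    · have k3 := k1.trans k2
      rcases lt_or_gt_of_ne hwP with hlt | hlt
      · simp only [Cyc, x1, x2, x3, x4, k1, k2, k3, k1.not_gt, k2.not_gt, k3.not_gt, hlt,
          hlt.not_gt]
        simp
      · simp only [Cyc, x1, x2, x3, x4, k1, k2, k3, k1.not_gt, k2.not_gt, k3.not_gt, hlt,
          hlt.not_gt]
        simp
  have TP : (Cyc a P a' ↔ a' < a) ∧ (Cyc a' P a ↔ a < a') ∧ (Cyc P a' a ↔ a' < a) ∧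
      (Cyc a a' P ↔ a < a') := by
    rcases hN with ⟨k1, k2, -⟩ | ⟨k1, k2, -⟩
    · have k3 := k1.trans k2
      simp only [Cyc, k1, k2, k3, k1.not_gt, k2.not_gt, k3.not_gt]
      simp
    · have k3 := k1.trans k2
      simp only [Cyc, k1, k2, k3, k1.not_gt, k2.not_gt, k3.not_gt]
      simp
  have T3 : ∀ w ∈ L, (Cyc a w a' ↔ a' < a) ∧ (Cyc a' w a ↔ a < a') := by
    intro w hw
    by_cases hwP : w = P
    · rw [hwP]; exact ⟨TP.1, TP.2.1⟩
    · obtain ⟨-, -, t3, t4, -, -⟩ := T w hw hwP
      exact ⟨t3, t4⟩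
  have irr1 : ∀ x y : α, ¬ Cyc x x y := by
    intro x y hc
    unfold Cyc at hc
    rcases hc with hc | hc | hc
    · exact lt_irrefl _ hc.1
    · exact lt_asymm hc.1 hc.2
    · exact lt_irrefl _ hc.2
  have irr2 : ∀ x y : α, ¬ Cyc x y y := by
    intro x y hc
    unfold Cyc at hc
    rcases hc with hc | hc | hc
    · exact lt_irrefl _ hc.2
    · exact lt_irrefl _ hc.1
    · exact lt_asymm hc.1 hc.2
  have haf : ∀ c, ∀ x ∈ L, fO s L c x ≠ a := fun c x hx hh => ha (hh ▸ hmem c x hx)
  have haf' : ∀ c, ∀ x ∈ L, fO s L c x ≠ a' := fun c x hx hh => ha' (hh ▸ hmem c x hx)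
  intro c x hx y hy hc
  rcases Cfg.bool_cases b c with rfl | rfl
  · -- the page of `P`, `Q`
    rcases hmemL' x hx with rfl | rfl | hxL
    · -- `x = a`
      rw [e4] at hc ⊢
      rcases hmemL' y hy with rfl | rfl | hyL
      · exact absurd hc (irr1 _ _)
      · rw [e5]
        have hQP : Q ≠ P := hPQ.symm
        exact (T Q hQL hQP).2.1.2 (TP.2.2.2.1 hc)
      · by_cases hyP : y = P
        · rw [hyP] at hc; exact absurd hc (irr2 _ _)
        · have h1 := (T y hyL hyP).2.1.1 hc
          by_cases hyQ : y = Q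
          · rw [hyQ, e6]; exact TP.2.2.2.2 h1
          · rw [e10 y hyL hyP hyQ]
            refine (T _ (hmem _ y hyL) ?_).2.1.2 h1
            intro hh
            apply hyQ
            rw [← hinv c y hyL, hh, e1]
    · -- `x = a'`
      rw [e5] at hc ⊢
      rcases hmemL' y hy with rfl | rfl | hyL
      · rw [e4]
        have h1 : Cyc y Q x := cyc_rot.1 hc
        have h2 := (T Q hQL hPQ.symm).2.2.1.1 h1
        exact cyc_rot.2 ((T Q hQL hPQ.symm).2.2.2.2.2.2 h2)
      · exact absurd hc (irr1 _ _)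
      · by_cases hyP : y = P
        · rw [hyP] at hc ⊢
          rw [e3]
          have h1 : Cyc P Q x := cyc_rot.1 hc
          have h2 := (T Q hQL hPQ.symm).2.2.2.2.2.1 h1
          exact cyc_rot.2 ((T Q hQL hPQ.symm).2.2.1.2 h2)
        · by_cases hyQ : y = Q
          · rw [hyQ] at hc; exact absurd hc (irr2 _ _)
          · rw [e10 y hyL hyP hyQ]
            have h1 := (c4 y hyL Q hQL hyP hPQ.symm).1 hc
            have h2 := hpl c P hPL y hyL (by rw [e1]; exact h1)
            rw [e1] at h2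
            refine (c4 _ (hmem _ y hyL) Q hQL ?_ hPQ.symm).2 h2
            intro hh
            apply hyQ
            rw [← hinv c y hyL, hh, e1]
    · by_cases hxP : x = P
      · -- `x = P`
        rw [hxP] at hc ⊢
        rw [e3] at hc ⊢
        rcases hmemL' y hy with rfl | rfl | hyL
        · exact absurd hc (irr2 _ _)
        · rw [e5]
          exact (T Q hQL hPQ.symm).1.2 (TP.2.2.1.1 hc)
        · by_cases hyP : y = P
          · rw [hyP] at hc; exact absurd hc (irr1 _ _)
          · have h1 := (T y hyL hyP).1.1 hc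
            by_cases hyQ : y = Q
            · rw [hyQ, e6]; exact TP.2.2.1.2 h1
            · rw [e10 y hyL hyP hyQ]
              refine (T _ (hmem _ y hyL) ?_).1.2 h1
              intro hh
              apply hyQ
              rw [← hinv c y hyL, hh, e1]
      · by_cases hxQ : x = Q
        · -- `x = Q`
          rw [hxQ] at hc ⊢
          rw [e6] at hc ⊢
          rcases hmemL' y hy with rfl | rfl | hyL
          · rw [e4]
            have h1 : Cyc a' Q y := (cyc_rot.trans cyc_rot).1 hc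
            have h2 := (T Q hQL hPQ.symm).2.2.2.1.1 h1
            exact (cyc_rot.trans cyc_rot).2 ((T Q hQL hPQ.symm).2.2.2.2.1.2 h2)
          · exact absurd hc (irr2 _ _)
          · by_cases hyP : y = P
            · rw [hyP] at hc ⊢
              rw [e3]
              have h1 : Cyc a' Q P := (cyc_rot.trans cyc_rot).1 hc
              have h2 := (T Q hQL hPQ.symm).2.2.2.2.1.1 h1
              exact (cyc_rot.trans cyc_rot).2 ((T Q hQL hPQ.symm).2.2.2.1.2 h2)
            · by_cases hyQ : y = Q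
              · rw [hyQ] at hc; exact absurd hc (irr1 _ _)
              · rw [e10 y hyL hyP hyQ]
                have h1 : Cyc y P Q := (c2 y hyL Q hQL hyP hPQ.symm).1 (cyc_rot.1 hc)
                have h2 := hpl c Q hQL y hyL (by rw [e2]; exact cyc_rot.2 h1)
                rw [e2] at h2
                refine cyc_rot.2 ((c2 _ (hmem _ y hyL) Q hQL ?_ hPQ.symm).2 (cyc_rot.1 h2))
                intro hh
                apply hyQ
                rw [← hinv c y hyL, hh, e1]
        · -- other `x`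
          have hfx : fO s L c x ∈ L := hmem c x hxL
          have hfxP : fO s L c x ≠ P := by
            intro hh
            apply hxQ
            rw [← hinv c x hxL, hh, e1]
          rw [e10 x hxL hxP hxQ] at hc ⊢
          rcases hmemL' y hy with rfl | rfl | hyL
          · rw [e4]; exact (c1 x hxL _ hfx hxP hfxP).1 hc
          · rw [e5]
            have h1 := (c2 x hxL _ hfx hxP hfxP).1 hc
            have h2 := hpl c x hxL P hPL h1
            rwa [e1] at h2
          · by_cases hyP : y = P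
            · rw [hyP] at hc ⊢; rw [e3]; exact (c1 x hxL _ hfx hxP hfxP).2 hc
            · by_cases hyQ : y = Q
              · rw [hyQ] at hc ⊢
                rw [e6]
                have h2 := hpl c x hxL Q hQL hc
                rw [e2] at h2
                exact (c2 x hxL _ hfx hxP hfxP).2 h2
              · rw [e10 y hyL hyP hyQ]
                exact hpl c x hxL y hyL hc
  · -- the other page
    rcases hmemL' x hx with rfl | rfl | hxL
    · rw [e7] at hc ⊢
      rcases hmemL' y hy with rfl | rfl | hyL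
      · exact absurd hc (irr1 _ _)
      · exact absurd hc (irr2 _ _)
      · rw [e9 y hyL]
        exact (T3 _ (hmem _ y hyL)).1.2 ((T3 y hyL).1.1 hc)
    · rw [e8] at hc ⊢
      rcases hmemL' y hy with rfl | rfl | hyL
      · exact absurd hc (irr2 _ _)
      · exact absurd hc (irr1 _ _)
      · rw [e9 y hyL]
        exact (T3 _ (hmem _ y hyL)).2.2 ((T3 y hyL).2.1 hc)
    · have hfx : fO s L (!b) x ∈ L := hmem (!b) x hxL
      rw [e9 x hxL] at hc ⊢
      have key : Cyc x a (fO s L (!b) x) ↔ Cyc x a' (fO s L (!b) x) := by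
        by_cases hxP : x = P
        · have hne : fO s L (!b) x ≠ P := by
            intro hh
            exact hfne (!b) x hxL (by rw [hh, hxP])
          obtain ⟨t1, t2, t3, t4, t5, t6⟩ := T _ hfx hne
          rw [hxP] at t1 t2 t3 t4 t5 t6 ⊢
          rw [cyc_rot, t2, cyc_rot (x := P), t5]
        · by_cases hfP : fO s L (!b) x = P
          · obtain ⟨t1, t2, t3, t4, t5, t6⟩ := T x hxL hxP
            rw [hfP]
            rw [cyc_rot, cyc_rot, t1, cyc_rot (x := x) (y := a'), cyc_rot (x := a'), t6]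
          · rw [c1 x hxL _ hfx hxP hfP, c2 x hxL _ hfx hxP hfP]
      rcases hmemL' y hy with rfl | rfl | hyL
      · rw [e7]; exact key.1 hc
      · rw [e8]; exact key.2 hc
      · rw [e9 y hyL]; exact hpl (!b) x hxL y hyL hc

/-- the condition on the increments is symmetric -/
theorem inc_symm {M : ℝ} {b : Bool} {x y : α} {ex ey cx cy : ℝ} (hne : x ≠ y)
    (h : sg b * (ey - ex) = cy - cx + (if x < y then -M else M)) :
    sg b * (ex - ey) = cx - cy + (if y < x then -M else M) := by
  rcases lt_or_gt_of_ne hne with hlt | hlt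
  · rw [if_pos hlt] at h
    rw [if_neg hlt.not_gt]
    linarith
  · rw [if_neg hlt.not_gt] at h
    rw [if_pos hlt]
    linarith

/-- the new phases -/
noncomputable def insE (D : Dat α) (b : Bool) (P a a' : α) (E : α → ℝ) : α → ℝ := fun w =>
  if w = a then E P + sg b * (D.C b (D.lab a) - D.C b (D.lab P) + (if P < a then -D.M else D.M))
  else if w = a' then E P + sg b * (D.C b (D.lab a) - D.C b (D.lab P)) else E w

theorem sg_sq (b : Bool) : sg b * sg b = 1 := by cases b <;> simp [sg]

/-- **Insertion.** -/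
theorem Crv.ins (h : Crv D s (A ++ P :: Q :: B) E) (ha : a ∉ A ++ P :: Q :: B)
    (ha' : a' ∉ A ++ P :: Q :: B) (hN : Next (A ++ P :: Q :: B) P a a')
    (hlab : D.lab a = D.lab a') :
    Crv D s (A ++ P :: a :: a' :: Q :: B) (insE D (pgk s A.length) P a a' E) := by
  have hne : a ≠ a' := by
    rcases hN with k | k
    · exact k.1.ne'
    · exact k.2.1.ne
  refine ⟨h.cl.ins ha ha' hne, ins_planar h.cl h.pl ha ha' hN, ?_⟩
  obtain ⟨e1, e2, e3, e4, e5, e6, e7, e8, e9, e10⟩ := ins_f (s := s) h.cl ha ha' hne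
  have hPL : P ∈ A ++ P :: Q :: B := by simp
  have hQL : Q ∈ A ++ P :: Q :: B := by simp
  have hmem := fun b x (hx : x ∈ A ++ P :: Q :: B) => f_mem h.cl s b hx
  have hinv := fun b x (hx : x ∈ A ++ P :: Q :: B) => f_f h.cl s b hx
  have hfne := fun b x (hx : x ∈ A ++ P :: Q :: B) => f_ne h.cl s b hx
  have hmemL' : ∀ x ∈ A ++ P :: a :: a' :: Q :: B, x = a ∨ x = a' ∨ x ∈ A ++ P :: Q :: B := by
    intro x hx
    simp only [List.mem_append, List.mem_cons] at hx ⊢
    tauto
  have hcmp := fun x (hx : x ∈ A ++ P :: Q :: B) (hxP : x ≠ P) => hN.cmp ha ha' hx hxP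
  have hPa : P ≠ a := fun hh => ha (hh ▸ hPL)
  have hPa' : P ≠ a' := fun hh => ha' (hh ▸ hPL)
  have hinc := h.inc
  generalize hL : A ++ P :: Q :: B = L at *
  generalize hL' : A ++ P :: a :: a' :: Q :: B = L' at *
  generalize hb : pgk s A.length = b at *
  have hPQ : P ≠ Q := by
    intro hh
    have := hfne b P hPL
    rw [e1] at this
    exact this hh.symm
  have hQa' : Q ≠ a' := fun hh => ha' (hh ▸ hQL)
  set E' := insE D b P a a' E with hE'
  have hEL : ∀ x ∈ L, E' x = E x := by
    intro x hx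
    rw [hE']
    unfold insE
    rw [if_neg (fun hh : x = a => ha (hh ▸ hx)), if_neg (fun hh : x = a' => ha' (hh ▸ hx))]
  have hEa : E' a = E P + sg b * (D.C b (D.lab a) - D.C b (D.lab P) +
      (if P < a then -D.M else D.M)) := by
    rw [hE']; unfold insE; rw [if_pos rfl]
  have hEa' : E' a' = E P + sg b * (D.C b (D.lab a) - D.C b (D.lab P)) := by
    rw [hE']; unfold insE; rw [if_neg hne.symm, if_pos rfl]
  -- the three new pairs
  have p1 : sg b * (E' a - E' P) = D.C b (D.lab a) - D.C b (D.lab P) +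
      (if P < a then -D.M else D.M) := by
    rw [hEa, hEL P hPL, add_sub_cancel_left, ← mul_assoc, sg_sq, one_mul]
  have p2 : sg b * (E' Q - E' a') = D.C b (D.lab Q) - D.C b (D.lab a') +
      (if a' < Q then -D.M else D.M) := by
    have h1 := hinc b P hPL
    rw [e1] at h1
    obtain ⟨-, -, -, x4⟩ := hcmp Q hQL hPQ.symm
    have h2 : (if a' < Q then -D.M else D.M) = (if P < Q then -D.M else D.M) := by
      by_cases hc : P < Q
      · rw [if_pos hc, if_pos (x4.2 hc)]
      · rw [if_neg hc, if_neg (fun hh => hc (x4.1 hh))]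
    rw [h2, hEa', hEL Q hQL, ← hlab]
    have h3 : sg b * (E Q - (E P + sg b * (D.C b (D.lab a) - D.C b (D.lab P)))) =
        sg b * (E Q - E P) - (sg b * sg b) * (D.C b (D.lab a) - D.C b (D.lab P)) := by ring
    rw [h3, sg_sq, h1]
    ring
  have p3 : sg (!b) * (E' a' - E' a) = D.C (!b) (D.lab a') - D.C (!b) (D.lab a) +
      (if a < a' then -D.M else D.M) := by
    rw [hEa, hEa', sg_not, ← hlab, sub_self, zero_add]
    have h3 : -sg b * (E P + sg b * (D.C b (D.lab a) - D.C b (D.lab P)) -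
        (E P + sg b * (D.C b (D.lab a) - D.C b (D.lab P) + if P < a then -D.M else D.M))) =
        (sg b * sg b) * (if P < a then -D.M else D.M) := by ring
    rw [h3, sg_sq, one_mul]
    rcases hN with ⟨k1, k2, -⟩ | ⟨k1, k2, -⟩
    · rw [if_neg k1.not_gt, if_neg k2.not_gt]
    · rw [if_pos k1, if_pos k2]
  intro c x hx
  rcases Cfg.bool_cases b c with rfl | rfl
  · rcases hmemL' x hx with rfl | rfl | hxL
    · rw [e4]; exact inc_symm hPa p1
    · rw [e5]; exact p2
    · by_cases hxP : x = P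
      · rw [hxP, e3]; exact p1
      · by_cases hxQ : x = Q
        · rw [hxQ, e6]; exact inc_symm hQa'.symm p2
        · rw [e10 x hxL hxP hxQ, hEL x hxL, hEL _ (hmem _ x hxL)]
          exact hinc c x hxL
  · rcases hmemL' x hx with rfl | rfl | hxL
    · rw [e7]; exact p3
    · rw [e8]; exact inc_symm hne p3
    · rw [e9 x hxL, hEL x hxL, hEL _ (hmem _ x hxL)]
      exact hinc (!b) x hxL

theorem insE_eq (b : Bool) {L : List α} (ha : a ∉ L) (ha' : a' ∉ L) {x : α} (hx : x ∈ L) :
    insE D b P a a' E x = E x := by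
  unfold insE
  rw [if_neg (fun hh : x = a => ha (hh ▸ hx)), if_neg (fun hh : x = a' => ha' (hh ▸ hx))]

/-- the phase outside the curve is irrelevant -/
theorem SelApi.congrE (T : SelApi α) {c : Cfg α} {E E' : α → ℝ} {M : ℝ} (hg : c.Good)
    (hv : c.Valid E M) (hE : ∀ x ∈ c.S, E' x = E x) : T.sel c E' = T.sel c E := by
  have hv' : c.Valid E' M := by
    intro b T' hT' hPD
    refine le_trans (le_of_eq ?_) (hv b T' hT' hPD)
    apply Finset.sum_congr rfl
    intro x hx
    unfold Cfg.dl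
    rw [hE x (hT' hx), hE _ (hg.mem b x (hT' hx))]
  exact (T.iso c c E E' M id hg hg hv hv' (fun x _ y _ hxy => hxy) (fun x hx => hx)
    (fun y hy => ⟨y, hy, rfl⟩) (fun b x _ => rfl) (fun x hx => hE x hx)).symm

/-- **Insertion** does not change the value. -/
theorem Crv.ins_val (T : SelApi α) (h : Crv D s (A ++ P :: Q :: B) E)
    (ha : a ∉ A ++ P :: Q :: B) (ha' : a' ∉ A ++ P :: Q :: B)
    (hN : Next (A ++ P :: Q :: B) P a a') (hlab : D.lab a = D.lab a') :
    T.val s (A ++ P :: a :: a' :: Q :: B) (insE D (pgk s A.length) P a a' E) =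
      T.val s (A ++ P :: Q :: B) E := by
  have hne : a ≠ a' := by
    rcases hN with k | k
    · exact k.1.ne'
    · exact k.2.1.ne
  have h' := h.ins ha ha' hN hlab
  set E' := insE D (pgk s A.length) P a a' E with hE'
  obtain ⟨e1, e2, e3, e4, e5, e6, e7, e8, e9, e10⟩ := ins_f (s := s) h.cl ha ha' hne
  have hPL : P ∈ A ++ P :: Q :: B := by simp
  have r1 : A ++ P :: a :: a' :: Q :: B = (A ++ [P]) ++ a :: a' :: (Q :: B) := by simp
  have r2 : A ++ P :: Q :: B = (A ++ [P]) ++ (Q :: B) := by simp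
  have hEL : ∀ x ∈ A ++ P :: Q :: B, E' x = E x := fun x hx => insE_eq _ ha ha' hx
  have hcmp := fun x (hx : x ∈ A ++ P :: Q :: B) (hxP : x ≠ P) => hN.cmp ha ha' hx hxP
  have hlen : 2 < (A ++ P :: a :: a' :: Q :: B).length := by
    simp only [List.length_append, List.length_cons]; omega
  have hg := h.good
  have hv := h.valid
  rw [r1] at h' e7 e8 hlen ⊢
  rw [r2] at hEL hcmp hg hv ha ha' hPL ⊢
  have hmem' : ∀ z ∈ (A ++ [P]) ++ a :: a' :: (Q :: B), z = a ∨ z = a' ∨
      z ∈ (A ++ [P]) ++ (Q :: B) := by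
    intro x hx
    simp only [List.mem_append, List.mem_cons] at hx ⊢
    tauto
  have hgap : ∀ z ∈ (A ++ [P]) ++ a :: a' :: (Q :: B), ¬ (a < z ∧ z < a') ∧ ¬ (a' < z ∧ z < a) := by
    intro z hz
    rcases hmem' z hz with rfl | rfl | hzL
    · exact ⟨fun hh => lt_irrefl _ hh.1, fun hh => lt_irrefl _ hh.2⟩
    · exact ⟨fun hh => lt_irrefl _ hh.2, fun hh => lt_irrefl _ hh.1⟩
    · by_cases hzP : z = P
      · rw [hzP]
        rcases hN with ⟨k1, k2, -⟩ | ⟨k1, k2, -⟩
        · exact ⟨fun hh => lt_asymm (hh.2.trans k1) k2, fun hh => lt_asymm hh.2 k2⟩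
        · exact ⟨fun hh => lt_asymm hh.1 k1, fun hh => lt_asymm hh.1 (k1.trans k2)⟩
      · obtain ⟨x1, x2, x3, x4⟩ := hcmp z hzL hzP
        exact ⟨fun hh => lt_asymm (x2.1 hh.1) (x3.1 hh.2), fun hh => lt_asymm (x4.1 hh.1) (x1.1 hh.2)⟩
  -- the left end of the bigon
  obtain ⟨x, hx, hlt, hlab', hleaf⟩ : ∃ x, (x = a ∨ x = a') ∧
      x < fO s ((A ++ [P]) ++ a :: a' :: (Q :: B)) (!pgk s A.length) x ∧
      D.lab (fO s ((A ++ [P]) ++ a :: a' :: (Q :: B)) (!pgk s A.length) x) = D.lab x ∧
      ∀ z ∈ (A ++ [P]) ++ a :: a' :: (Q :: B),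
        ¬ (x < z ∧ z < fO s ((A ++ [P]) ++ a :: a' :: (Q :: B)) (!pgk s A.length) x) := by
    rcases lt_or_gt_of_ne hne with hlt | hlt
    · exact ⟨a, Or.inl rfl, by rw [e7]; exact hlt, by rw [e7, hlab],
        fun z hz => by rw [e7]; exact (hgap z hz).1⟩
    · exact ⟨a', Or.inr rfl, by rw [e8]; exact hlt, by rw [e8, hlab],
        fun z hz => by rw [e8]; exact (hgap z hz).2⟩
  obtain ⟨n1, n2, n3⟩ := crv_del h' hx e7 hlen hlt hlab' hleaf
  have hcard : 2 < (cfg s ((A ++ [P]) ++ a :: a' :: (Q :: B))).S.card := by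
    rw [card_cfg h'.cl]; exact hlen
  have hag := agree_del h'.cl hx e7
  have t1 := T.leaf _ E' D.M _ x h'.good h'.valid hcard n2 n3
  have t2 := T.agree hag (Cfg.good_del h'.good hcard n2)
    (Cfg.valid_del h'.good hcard n2 h'.valid n3) n1.valid
  unfold SelApi.val
  rw [← t1, ← t2]
  exact T.congrE hg hv (fun y hy => hEL y (List.mem_toFinset.1 hy))

end ins

end P040H251
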