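import Vale.Agent.P040.H251.Class

/-!
# P040: rotation of a closed curve by two points
-/

set_option linter.unusedSectionVars false

namespace P040H251
open Vale.Agent.P040.H906

variable {α : Type*} [LinearOrder α] [Inhabited α]

theorem rot2_g (a b : α) (L : List α) {i : ℕ} (hi : i < L.length + 2) :
    g (L ++ [a, b]) i = g (a :: b :: L) (if i < L.length then i + 2 else i - L.length) := by
  unfold g
  split_ifs with hc
  · rw [List.getD_append _ _ _ _ hc]
    simp
  · rw [List.getD_append_right _ _ _ _ (by omega)]
    have h1 : i - L.length = 0 ∨ i - L.length = 1 := by omega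
    rcases h1 with h1 | h1 <;> rw [h1] <;> simp

theorem rot2_f {a b : α} {L : List α} (h : CL (a :: b :: L)) (s c : Bool) {x : α}
    (hx : x ∈ a :: b :: L) : fO s (L ++ [a, b]) c x = fO s (a :: b :: L) c x := by
  have hp : (L ++ [a, b]).Perm (a :: b :: L) := by
    have : (L ++ [a, b]).Perm ([a, b] ++ L) := List.perm_append_comm
    exact this
  have hlen : (L ++ [a, b]).length = L.length + 2 := by simp
  have hlen' : (a :: b :: L).length = L.length + 2 := by simp
  have h' : CL (L ++ [a, b]) := ⟨hp.nodup_iff.2 h.nodup, by rw [hlen, ← hlen']; exact h.even,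
    by rw [hlen]; omega⟩
  obtain ⟨i, hi, rfl⟩ := ex_idx (hp.mem_iff.2 hx)
  rw [f_g h' s c hi]
  rw [hlen] at hi ⊢
  have he := h.even
  rw [hlen'] at he
  have hj : (if i < L.length then i + 2 else i - L.length) < (a :: b :: L).length := by
    rw [hlen']; split_ifs <;> omega
  have hpi : pI (L.length + 2) s c i < L.length + 2 := pI_lt he hi
  rw [rot2_g a b L hi, f_g h s c hj, rot2_g a b L hpi, hlen']
  congr 1
  have key : ∀ n, n = L.length + 2 →
      (if uI i < L.length then uI i + 2 else uI i - L.length) =
        uI (if i < L.length then i + 2 else i - L.length) ∧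
      (if lI n i < L.length then lI n i + 2 else lI n i - L.length) =
        lI n (if i < L.length then i + 2 else i - L.length) := by
    intro n hn
    have u1 := uI_cases i
    have u2 := uI_cases (if i < L.length then i + 2 else i - L.length)
    have l1 := lI_cases n i
    have l2 := lI_cases n (if i < L.length then i + 2 else i - L.length)
    by_cases hc : i < L.length
    · rw [if_pos hc] at u2 l2 ⊢
      generalize uI i = r1 at *
      generalize uI (i + 2) = r2 at *
      generalize lI n i = r3 at *
      generalize lI n (i + 2) = r4 at *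
      clear hj hpi
      constructor
      · split_ifs <;> omega
      · split_ifs <;> omega
    · rw [if_neg hc] at u2 l2 ⊢
      generalize uI i = r1 at *
      generalize uI (i - L.length) = r2 at *
      generalize lI n i = r3 at *
      generalize lI n (i - L.length) = r4 at *
      clear hj hpi
      constructor
      · split_ifs <;> omega
      · split_ifs <;> omega
  obtain ⟨k1, k2⟩ := key _ rfl
  cases s <;> cases c
  · exact k1
  · exact k2
  · exact k2
  · exact k1

theorem rot2 {D : Dat α} {s : Bool} {a b : α} {L : List α} {E : α → ℝ}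
    (T : SelApi α) (h : Crv D s (a :: b :: L) E) : Crv D s (L ++ [a, b]) E ∧
      T.val s (L ++ [a, b]) E = T.val s (a :: b :: L) E := by
  have hp : (L ++ [a, b]).Perm (a :: b :: L) := by
    have : (L ++ [a, b]).Perm ([a, b] ++ L) := List.perm_append_comm
    exact this
  have hag : Agree (cfg s (a :: b :: L)) (cfg s (L ++ [a, b])) := by
    refine ⟨?_, ?_⟩
    · simp only [cfg_S]
      exact List.toFinset_eq_of_perm _ _ hp
    · intro c x hx
      rw [cfg_S, List.mem_toFinset] at hx
      exact rot2_f h.cl s c hx
  have hcl : CL (L ++ [a, b]) := ⟨hp.nodup_iff.2 h.cl.nodup, by rw [hp.length_eq]; exact h.cl.even,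
    by rw [hp.length_eq]; exact h.cl.pos⟩
  have hC : Crv D s (L ++ [a, b]) E := by
    refine ⟨hcl, planar_of_good (hag.good h.good), ?_⟩
    intro c x hx
    have hx' := hp.mem_iff.1 hx
    rw [rot2_f h.cl s c hx']
    exact h.inc c x hx'
  exact ⟨hC, T.agree hag h.good h.valid hC.valid⟩

end P040H251
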