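import Vale.Agent.P040.H84.ValDef
import Vale.Agent.P040.H84.Ins
import Vale.Agent.P040.H84.Rot2
import Vale.Agent.P040.H105.Tup

/-!
# P040: the values, half turn and leaf twist
-/

namespace Vale.Agent.P040.H84

open P040H251 Vale.Agent.P040.H906

namespace LData

variable {h : ℕ} (P : LData h)

theorem cl_mul (g : ℕ) : Pst.cl true g * Pst.cl false g = 1 := by simp [Pst.cl]

/-- one leaf of mass one -/
theorem cnt_succ (z : Fin (2 * h)) :
    (P.cnt true (P.rk (P.pos z) + 1) : ℝ) - P.cnt true (P.rk (P.pos z)) +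
      (P.cnt false (P.rk (P.pos z) + 1) - P.cnt false (P.rk (P.pos z))) = 1 := by
  have key : ∀ b, P.cnt b (P.rk (P.pos z) + 1) = P.cnt b (P.rk (P.pos z)) +
      if P.pg z = b then 1 else 0 := by
    intro b
    unfold cnt
    by_cases hz : P.pg z = b
    · rw [if_pos hz]
      have h1 : (Finset.univ.filter fun i => P.pg i = b ∧ P.rk (P.pos i) < P.rk (P.pos z) + 1) =
          insert z (Finset.univ.filter fun i => P.pg i = b ∧ P.rk (P.pos i) < P.rk (P.pos z)) := by
        ext i
        rw [Finset.mem_insert, Finset.mem_filter, Finset.mem_filter]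
        constructor
        · rintro ⟨-, h1, h2⟩
          rcases Nat.lt_succ_iff_lt_or_eq.1 h2 with h3 | h3
          · exact Or.inr ⟨Finset.mem_univ _, h1, h3⟩
          · left
            by_contra hne
            rcases lt_or_gt_of_ne (fun hh => hne (P.inj hh)) with h4 | h4
            · exact absurd h3 ((P.rk_lt_iff i _).2 h4).ne
            · exact absurd h3 ((P.rk_lt_iff z _).2 h4).ne'
        · rintro (rfl | ⟨-, h1, h2⟩)
          · exact ⟨Finset.mem_univ _, hz, Nat.lt_succ_self _⟩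
          · exact ⟨Finset.mem_univ _, h1, h2.trans (Nat.lt_succ_self _)⟩
      rw [h1, Finset.card_insert_of_notMem]
      simp
    · rw [if_neg hz, add_zero]
      congr 1
      apply Finset.filter_congr
      intro i _
      constructor
      · rintro ⟨h1, h2⟩
        refine ⟨h1, ?_⟩
        rcases Nat.lt_succ_iff_lt_or_eq.1 h2 with h3 | h3
        · exact h3
        · exfalso
          have hne : i ≠ z := fun hh => hz (hh ▸ h1)
          rcases lt_or_gt_of_ne (fun hh => hne (P.inj hh)) with h4 | h4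
          · exact absurd h3 ((P.rk_lt_iff i _).2 h4).ne
          · exact absurd h3 ((P.rk_lt_iff z _).2 h4).ne'
      · rintro ⟨h1, h2⟩
        exact ⟨h1, h2.trans (Nat.lt_succ_self _)⟩
  rw [key, key]
  cases hpg : P.pg z <;> simp

/-- the curve with the leaf reached from below -/
structure Low (z : Fin (2 * h)) (R : FreeGroup ℕ) (v : ℝ) (r l : ℝ) (M : List ℝ)
    (E : ℝ → ℝ) : Prop where
  crv : Crv P.D0 true (r :: l :: M) E
  lz : l < P.pos z
  zr : P.pos z < r
  emp : ∀ w ∈ M, ¬ (l < w ∧ w < r)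
  rkl : P.rk l = P.rk (P.pos z)
  rkr : P.rk r = P.rk (P.pos z) + 1
  word : Pst.wd P.G0 true (l :: M) = R * FreeGroup.of (P.G0.lt z)
  val : v = selApi.val true (r :: l :: M) E - E r

variable {P}

theorem gap_lt {z : Fin (2 * h)} {x : ℝ} (hx : P.rk x = P.rk (P.pos z)) :
    P.G0.gap x = P.G0.lt z := by
  show P.rk x % (2 * h) = P.rk (P.pos z)
  rw [hx, Nat.mod_eq_of_lt (P.rk_pos_lt z)]

theorem gap_rt {z : Fin (2 * h)} {x : ℝ} (hx : P.rk x = P.rk (P.pos z) + 1) :
    P.G0.gap x = P.G0.rt z := by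
  show P.rk x % (2 * h) = (P.rk (P.pos z) + 1) % (2 * h)
  rw [hx]

/-- **Half turn.** Every value has a curve with the leaf reached from below. -/
theorem Val.low {z : Fin (2 * h)} {R : FreeGroup ℕ} {v : ℝ} (hv : P.Val z R v) :
    ∃ r l M E, P.Low z R v r l M E := by
  obtain ⟨r, l, L, E, hC, hF, hw, hv⟩ := hv
  rcases hF.fl with hfl | hfl
  · obtain ⟨M, rfl⟩ : ∃ M, L = l :: M := by
      cases L with
      | nil => simp at hfl
      | cons a M => simp at hfl; exact ⟨M, by rw [hfl]⟩
    exact ⟨r, l, M, E, hC, hF.lz, hF.zr, fun w hw' => hF.emp w (by simp [hw']), hF.rkl, hF.rkr,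
      hw, hv⟩
  · obtain ⟨Q, B, rfl⟩ : ∃ Q B, L = Q :: B := by
      cases L with
      | nil => simp at hfl
      | cons a M => exact ⟨a, M, rfl⟩
    obtain ⟨q, hq1, hq2⟩ := exists_between hF.lz
    obtain ⟨n, hn1, hn2⟩ := exists_between hq2
    have hqn : q < n := hn1
    have hrkq : P.rk q = P.rk (P.pos z) :=
      le_antisymm (P.rk_mono hq2.le) (by rw [← hF.rkl]; exact P.rk_mono hq1.le)
    have hrkn : P.rk n = P.rk (P.pos z) :=
      le_antisymm (P.rk_mono hn2.le) (by rw [← hF.rkl]; exact P.rk_mono (hq1.trans hn1).le)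
    have hemp : ∀ w ∈ ([] : List ℝ) ++ r :: Q :: B, ¬ (l < w ∧ w < r) := by
      intro w hw'
      rw [List.nil_append, List.mem_cons] at hw'
      rcases hw' with rfl | hw'
      · exact fun hh => lt_irrefl _ hh.2
      · exact hF.emp w hw'
    have hnL : n ∉ ([] : List ℝ) ++ r :: Q :: B := fun hh =>
      hemp n hh ⟨hq1.trans hn1, hn2.trans hF.zr⟩
    have hqL : q ∉ ([] : List ℝ) ++ r :: Q :: B := fun hh =>
      hemp q hh ⟨hq1, hq2.trans hF.zr⟩
    have hN : Next (([] : List ℝ) ++ r :: Q :: B) r n q :=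
      Or.inl ⟨hqn, hn2.trans hF.zr, fun w hw' hh => hemp w hw' ⟨hq1.trans hh.1, hh.2⟩⟩
    have hlab : P.D0.lab n = P.D0.lab q := by
      show P.rk n = P.rk q
      rw [hrkn, hrkq]
    have hC' : Crv P.D0 true (([] : List ℝ) ++ r :: Q :: B) E := hC
    have h1 := hC'.ins hnL hqL hN hlab
    have h2 := hC'.ins_val selApi hnL hqL hN hlab
    refine ⟨r, n, q :: Q :: B, insE P.D0 (pgk true ([] : List ℝ).length) r n q E, ?_⟩
    refine ⟨h1, hn2, hF.zr, ?_, hrkn, hF.rkr, ?_, ?_⟩
    · intro w hw'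
      rw [List.mem_cons] at hw'
      rcases hw' with rfl | hw'
      · exact fun hh => lt_asymm hh.1 hqn
      · exact fun hh => hF.emp w hw' ⟨(hq1.trans hn1).trans hh.1, hh.2⟩
    · rw [← hw]
      show Pst.cl true (P.G0.gap n) * (Pst.cl (!true) (P.G0.gap q) *
        Pst.wd P.G0 (!!true) (Q :: B)) = Pst.wd P.G0 true (Q :: B)
      rw [gap_lt hrkn, gap_lt hrkq, ← mul_assoc]
      rw [show (!true) = false from rfl, cl_mul, one_mul]
      rfl
    · rw [hv]
      have e1 : insE P.D0 (pgk true ([] : List ℝ).length) r n q E r = E r :=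
        insE_eq _ hnL hqL (by simp)
      rw [e1]
      congr 1
      exact h2.symm

/-- **Leaf twist.** -/
theorem Val.twist {z : Fin (2 * h)} {R : FreeGroup ℕ} {v : ℝ} (hv : P.Val z R v) :
    P.Val z ((P.T0 z)⁻¹ * R * P.T0 z) (v + (-1) * ((h : ℝ) - 1)) := by
  obtain ⟨r, l, M, E, hL⟩ := hv.low
  have hC := hL.crv
  -- the phase at `l`
  have hrl : l < r := hL.lz.trans hL.zr
  have f0 : fO true (r :: l :: M) true r = l := by
    have := f_next hC.cl true (k := 0) (by simp)
    simpa [pgk, g] using this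
  have i0 := hC.inc true r (by simp)
  rw [f0, if_neg hrl.not_gt] at i0
  -- the list has more than two points
  have hM : M ≠ [] := by
    rintro rfl
    have f1 : fO true [r, l] false r = l := by
      show lOf [r, l] r = l
      unfold lOf
      simp [lI, g]
    have i1 := hC.inc false r (by simp)
    rw [f1, if_neg hrl.not_gt] at i1
    have e1 : P.D0.lab l = P.rk (P.pos z) := hL.rkl
    have e2 : P.D0.lab r = P.rk (P.pos z) + 1 := hL.rkr
    rw [e1, e2] at i0 i1
    have e3 := P.cnt_succ z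
    have e4 : P.D0.C true = fun j => (P.cnt true j : ℝ) := rfl
    have e5 : P.D0.C false = fun j => (P.cnt false j : ℝ) := rfl
    have e6 : P.D0.M = (h : ℝ) / 2 := rfl
    rw [e4, e6] at i0
    rw [e5, e6] at i1
    have e7 : (2 : ℝ) ≤ h := by exact_mod_cast P.two_le
    simp only [sg, if_true, if_false, Bool.false_eq_true] at i0 i1
    linarith
  obtain ⟨Q, B, rfl⟩ : ∃ Q B, M = Q :: B := by
    cases M with
    | nil => exact absurd rfl hM
    | cons a M => exact ⟨a, M, rfl⟩
  obtain ⟨n, hn1, hn2⟩ := exists_between hL.zr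
  obtain ⟨q, hq1, hq2⟩ := exists_between hn2
  have hnq : n < q := hq1
  have hrk : ∀ x, P.pos z < x → x < r → P.rk x = P.rk (P.pos z) + 1 := by
    intro x h1 h2
    have h3 := (P.rk_lt_iff z x).2 h1
    have h4 := P.rk_mono h2.le
    have h5 := hL.rkr
    omega
  have hrkn := hrk n hn1 hn2
  have hrkq := hrk q (hn1.trans hq1) hq2
  have hemp : ∀ w ∈ [r] ++ l :: Q :: B, ¬ (l < w ∧ w < r) := by
    intro w hw'
    simp only [List.cons_append, List.nil_append] at hw'
    rw [List.mem_cons, List.mem_cons] at hw'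
    rcases hw' with rfl | rfl | hw'
    · exact fun hh => lt_irrefl _ hh.2
    · exact fun hh => lt_irrefl _ hh.1
    · exact hL.emp w hw'
  have hln : l < n := hL.lz.trans hn1
  have hnL : n ∉ [r] ++ l :: Q :: B := fun hh => hemp n hh ⟨hln, hn2⟩
  have hqL : q ∉ [r] ++ l :: Q :: B := fun hh => hemp q hh ⟨hln.trans hq1, hq2⟩
  have hN : Next ([r] ++ l :: Q :: B) l n q :=
    Or.inr ⟨hln, hnq, fun w hw' hh => hemp w hw' ⟨hh.1, hh.2.trans hq2⟩⟩
  have hlab : P.D0.lab n = P.D0.lab q := by
    show P.rk n = P.rk q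
    rw [hrkn, hrkq]
  have hC' : Crv P.D0 true ([r] ++ l :: Q :: B) E := hC
  have h1 := hC'.ins hnL hqL hN hlab
  have h2 := hC'.ins_val selApi hnL hqL hN hlab
  set E' := insE P.D0 (pgk true [r].length) l n q E with hE'
  have h1' : Crv P.D0 true (r :: l :: (n :: q :: Q :: B)) E' := h1
  obtain ⟨h3, h4⟩ := rot2 selApi h1'
  refine ⟨n, l, q :: Q :: B ++ [r, l], E', h3, ⟨?_, hL.lz, hn1, ?_, hL.rkl, hrkn⟩, ?_, ?_⟩
  · right
    rw [show q :: Q :: B ++ [r, l] = (q :: Q :: B ++ [r]) ++ [l] by simp,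
      List.getLast?_concat]
  · intro w hw'
    rw [List.cons_append, List.mem_cons, List.mem_append] at hw'
    rcases hw' with rfl | hw' | hw'
    · exact fun hh => lt_asymm hh.2 hnq
    · exact fun hh => hL.emp w hw' ⟨hh.1, hh.2.trans hn2⟩
    · simp only [List.mem_cons, List.not_mem_nil, or_false] at hw'
      rcases hw' with rfl | rfl
      · exact fun hh => lt_asymm hh.2 hn2
      · exact fun hh => lt_irrefl _ hh.1
  · -- the word
    have hev : (Q :: B).length % 2 = 0 := by
      have := hC.cl.even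
      simp only [List.length_cons] at this ⊢
      omega
    have hfl : Pst.fl (Q :: B).length false = false := by
      obtain ⟨k, hk⟩ : Even (Q :: B).length := Nat.even_iff.2 hev
      rw [hk, Pst.fl_add, Pst.fl_fl]
    have hw : Pst.cl true (P.G0.gap l) * Pst.wd P.G0 false (Q :: B) =
        R * FreeGroup.of (P.G0.lt z) := hL.word
    rw [gap_lt hL.rkl] at hw
    have hwd : Pst.wd P.G0 false (Q :: B) = (FreeGroup.of (P.G0.lt z))⁻¹ * R *
        FreeGroup.of (P.G0.lt z) := by
      rw [mul_assoc, ← hw]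
      simp [Pst.cl]
    show Pst.cl true (P.G0.gap q) * Pst.wd P.G0 (!true) (Q :: B ++ [r, l]) = _
    rw [show (!true) = false from rfl, Pst.wd_append, hfl, hwd, gap_rt hrkq]
    show Pst.cl true (P.G0.rt z) * (_ * (Pst.cl false (P.G0.gap r) *
      (Pst.cl (!false) (P.G0.gap l) * 1))) = _
    rw [gap_rt hL.rkr, gap_lt hL.rkl]
    simp only [Pst.cl, T0, if_true, if_false, Bool.false_eq_true, Bool.not_false]
    group
  · -- the value
    have e1 : E' n = E l + sg false * (P.D0.C false (P.D0.lab n) - P.D0.C false (P.D0.lab l) +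
        (if l < n then - P.D0.M else P.D0.M)) := by
      rw [hE']
      unfold insE
      rw [if_pos rfl]
      rfl
    rw [if_pos hln] at e1
    have e2 : P.D0.lab l = P.rk (P.pos z) := hL.rkl
    have e3 : P.D0.lab n = P.rk (P.pos z) + 1 := hrkn
    have e4 : P.D0.lab r = P.rk (P.pos z) + 1 := hL.rkr
    have e5 := P.cnt_succ z
    have e6 : P.D0.C true = fun j => (P.cnt true j : ℝ) := rfl
    have e7 : P.D0.C false = fun j => (P.cnt false j : ℝ) := rfl
    have e8 : P.D0.M = (h : ℝ) / 2 := rfl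
    rw [e2, e3, e7, e8] at e1
    rw [e2, e4, e6, e8] at i0
    simp only [sg, if_true, if_false, Bool.false_eq_true] at e1 i0
    have e9 : selApi.val true (n :: (q :: Q :: B ++ [r, l])) E' =
        selApi.val true (r :: l :: (Q :: B)) E := h4.trans h2
    rw [e9, hL.val, e1]
    linarith

end LData

end Vale.Agent.P040.H84
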