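import Vale.Agent.P040.H84.Val
import Vale.Agent.P040.H610.Trans

/-!
# P040: uniqueness of the values
-/

namespace Vale.Agent.P040.H84

open P040H251 Vale.Agent.P040.H906 Vale.Agent.P040.ToCrv

namespace LData

variable {h : ℕ} (P : LData h)

theorem cnt_zero (b : Bool) : P.cnt b 0 = 0 := by
  unfold cnt
  simp

theorem cnt_top (b : Bool) : P.cnt b (2 * h) = h := by
  unfold cnt
  refine Eq.trans ?_ (P.bal b)
  congr 1
  apply Finset.filter_congr
  intro i _
  exact ⟨fun hh => hh.1, fun hh => ⟨hh, P.rk_pos_lt i⟩⟩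

/-- the position of the label `j` when the spine is cut at a leaf of rank `i` -/
def kk (i j : ℕ) : ℕ := if j ≤ 1 then i + j else i + j - 1

theorem kk_mono (i : ℕ) : Monotone (kk i) := by
  intro j k hjk
  unfold kk
  split_ifs <;> omega

theorem le_kk (i j : ℕ) : i ≤ kk i j := by
  unfold kk
  split_ifs <;> omega

/-- the cumulative masses when the spine is cut at a leaf of rank `i` -/
noncomputable def cz (i : ℕ) (b : Bool) (j : ℕ) : ℝ :=
  if kk i j ≤ 2 * h then (P.cnt b (kk i j) : ℝ) - P.cnt b i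
  else (P.cnt b (min (kk i j - 2 * h) i) : ℝ) + h - P.cnt b i

theorem cz_nonneg (i : ℕ) (b : Bool) (j : ℕ) : 0 ≤ P.cz i b j := by
  unfold cz
  split_ifs with hc
  · have : (P.cnt b i : ℝ) ≤ P.cnt b (kk i j) := by exact_mod_cast P.cnt_mono b (le_kk i j)
    linarith
  · have h1 : (P.cnt b i : ℝ) ≤ h := by exact_mod_cast P.cnt_le b i
    have h2 : (0 : ℝ) ≤ P.cnt b (min (kk i j - 2 * h) i) := Nat.cast_nonneg _
    linarith

theorem cz_le (i : ℕ) (b : Bool) (j : ℕ) : P.cz i b j ≤ h := by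
  unfold cz
  split_ifs with hc
  · have h1 : (P.cnt b (kk i j) : ℝ) ≤ h := by exact_mod_cast P.cnt_le b _
    have h2 : (0 : ℝ) ≤ P.cnt b i := Nat.cast_nonneg _
    linarith
  · have h1 : (P.cnt b (min (kk i j - 2 * h) i) : ℝ) ≤ P.cnt b i := by
      exact_mod_cast P.cnt_mono b (min_le_right _ _)
    linarith

theorem cz_mono (i : ℕ) (b : Bool) : Monotone (P.cz i b) := by
  intro j k hjk
  have hK := kk_mono i hjk
  unfold cz
  split_ifs with h1 h2 h2
  · have : (P.cnt b (kk i j) : ℝ) ≤ P.cnt b (kk i k) := by exact_mod_cast P.cnt_mono b hK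
    linarith
  · have h3 : (P.cnt b (kk i j) : ℝ) ≤ h := by exact_mod_cast P.cnt_le b _
    have h4 : (0 : ℝ) ≤ P.cnt b (min (kk i k - 2 * h) i) := Nat.cast_nonneg _
    linarith
  · omega
  · have h3 : min (kk i j - 2 * h) i ≤ min (kk i k - 2 * h) i := by omega
    have : (P.cnt b (min (kk i j - 2 * h) i) : ℝ) ≤ P.cnt b (min (kk i k - 2 * h) i) := by
      exact_mod_cast P.cnt_mono b h3
    linarith

/-- the data of the spine cut at a leaf of rank `i` -/
noncomputable def DZ (i : ℕ) : Dat ℝ where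
  lab := fun x => ⌊x⌋₊
  mono := Nat.floor_mono
  C := P.cz i
  Cmono := P.cz_mono i
  M := (h : ℝ) / 2
  pos := by
    have : (2 : ℝ) ≤ h := by exact_mod_cast P.two_le
    linarith
  tot := fun b j k => by
    have h1 := P.cz_le i b k
    have h2 := P.cz_nonneg i b j
    linarith

/-- the labels of the points of a curve with the marked points `r`, `l` -/
noncomputable def lam (i : ℕ) (r l x : ℝ) : ℕ :=
  if x < l then 2 * h + 1 - i + P.rk x else if x = l then 0 else if x = r then 1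
  else P.rk x - i + 1

/-- the cut -/
noncomputable def phi (i : ℕ) (r l x : ℝ) : ℝ :=
  P.lam i r l x + (if x < l then (1 + ToCrv.sq x) / 2 else ToCrv.sq x / 2)

theorem floor_phi (i : ℕ) (r l x : ℝ) : ⌊P.phi i r l x⌋₊ = P.lam i r l x := by
  have h1 := sq_pos x
  have h2 := sq_lt_one x
  unfold phi
  rw [Nat.floor_eq_iff (by split_ifs <;> positivity)]
  constructor
  · split_ifs <;> linarith
  · split_ifs <;> linarith

/-- the letters after the cut -/
def jz (h i k : ℕ) : ℕ := if i + 1 ≤ k then k - i + 1 else 2 * h + 1 - i + k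

/-- the homomorphism to the letters after the cut -/
def psi (h i : ℕ) : FreeGroup ℕ →* FreeGroup ℕ :=
  FreeGroup.lift fun k => (FreeGroup.of (jz h i k))⁻¹

theorem mk_wl {lab : ℝ → ℕ} {i : ℕ} (M : List ℝ) (t : Bool)
    (hM : ∀ x ∈ M, lab x = jz h i (P.G0.gap x)) :
    FreeGroup.mk (wl lab t M) = psi h i (Pst.wd P.G0 (!t) M) := by
  induction M generalizing t with
  | nil => show FreeGroup.mk [] = psi h i 1; rw [map_one]; rfl
  | cons x M ih =>
    have h1 : FreeGroup.mk (wl lab t (x :: M)) =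
        FreeGroup.mk [(lab x, t)] * FreeGroup.mk (wl lab (!t) M) := by
      rw [FreeGroup.mul_mk]; rfl
    have h2 : Pst.wd P.G0 (!t) (x :: M) = Pst.cl (!t) (P.G0.gap x) * Pst.wd P.G0 (!!t) M := rfl
    rw [h1, h2, map_mul, ih (!t) fun y hy => hM y (List.mem_cons_of_mem _ hy), hM x (by simp)]
    congr 1
    cases t
    · show _ = psi h i (FreeGroup.of _)
      unfold psi
      rw [FreeGroup.lift_apply_of, FreeGroup.of, FreeGroup.inv_mk]
      rfl
    · show _ = psi h i (FreeGroup.of _)⁻¹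
      unfold psi
      rw [map_inv, FreeGroup.lift_apply_of, inv_inv]
      rfl

variable {P}

section low

variable {z : Fin (2 * h)} {R : FreeGroup ℕ} {v r l : ℝ} {M : List ℝ} {E : ℝ → ℝ}

/-- the points of the curve -/
theorem Low.cases (H : P.Low z R v r l M E) {x : ℝ} (hx : x ∈ M) : x < l ∨ r < x := by
  have h1 := H.emp x hx
  have h2 := H.crv.cl.nodup
  rw [List.nodup_cons, List.nodup_cons] at h2
  have h3 : x ≠ l := fun hh => h2.2.1 (hh ▸ hx)
  have h4 : x ≠ r := fun hh => h2.1 (by rw [← hh]; simp [hx])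
  rcases lt_or_gt_of_ne h3 with h5 | h5
  · exact Or.inl h5
  · right
    rcases lt_or_gt_of_ne h4 with h6 | h6
    · exact absurd ⟨h5, h6⟩ h1
    · exact h6

theorem Low.cases' (H : P.Low z R v r l M E) {x : ℝ} (hx : x ∈ r :: l :: M) :
    (x < l ∧ P.rk x ≤ P.rk (P.pos z) ∧
      P.lam (P.rk (P.pos z)) r l x = 2 * h + 1 - P.rk (P.pos z) + P.rk x) ∨
    (x = l ∧ P.lam (P.rk (P.pos z)) r l x = 0) ∨ (x = r ∧ P.lam (P.rk (P.pos z)) r l x = 1) ∨
    (r < x ∧ P.rk (P.pos z) + 1 ≤ P.rk x ∧ P.rk x ≤ 2 * h ∧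
      P.lam (P.rk (P.pos z)) r l x = P.rk x - P.rk (P.pos z) + 1) := by
  have hrl : l < r := H.lz.trans H.zr
  have key : x < l ∨ x = l ∨ x = r ∨ r < x := by
    rw [List.mem_cons, List.mem_cons] at hx
    rcases hx with rfl | rfl | hx
    · exact Or.inr (Or.inr (Or.inl rfl))
    · exact Or.inr (Or.inl rfl)
    · rcases H.cases hx with hc | hc
      · exact Or.inl hc
      · exact Or.inr (Or.inr (Or.inr hc))
  rcases key with hc | rfl | rfl | hc
  · left
    refine ⟨hc, ?_, ?_⟩
    · rw [← H.rkl]; exact P.rk_mono hc.le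
    · unfold lam; rw [if_pos hc]
  · right; left
    refine ⟨rfl, ?_⟩
    unfold lam; rw [if_neg (lt_irrefl _), if_pos rfl]
  · right; right; left
    refine ⟨rfl, ?_⟩
    unfold lam; rw [if_neg hrl.not_gt, if_neg hrl.ne', if_pos rfl]
  · right; right; right
    refine ⟨hc, ?_, P.rk_le x, ?_⟩
    · rw [← H.rkr]; exact P.rk_mono hc.le
    · unfold lam
      rw [if_neg (hrl.trans hc).not_gt, if_neg (hrl.trans hc).ne', if_neg hc.ne']

theorem Low.cut (H : P.Low z R v r l M E) :
    Cut (r :: l :: M) (P.phi (P.rk (P.pos z)) r l) (fun x => decide (x < l)) := by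
  have hrl : l < r := H.lz.trans H.zr
  have hi := P.rk_pos_lt z
  have hcases := fun x (hx : x ∈ r :: l :: M) => H.cases' hx
  have hrk := P.rk_mono
  generalize P.rk (P.pos z) = i at *
  have lt_of_lam : ∀ {a b : ℝ}, P.lam i r l a < P.lam i r l b →
      P.phi i r l a < P.phi i r l b := by
    intro a b hab
    have h1 : (P.lam i r l a : ℝ) + 1 ≤ P.lam i r l b := by exact_mod_cast hab
    have a2 := sq_lt_one a
    have a1 := sq_pos a
    have b1 := sq_pos b
    unfold phi
    split_ifs <;> linarith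
  have le_case : ∀ {a b : ℝ}, P.lam i r l a ≤ P.lam i r l b →
      (if a < l then (1 + ToCrv.sq a) / 2 else ToCrv.sq a / 2) <
        (if b < l then (1 + ToCrv.sq b) / 2 else ToCrv.sq b / 2) →
      P.phi i r l a < P.phi i r l b := by
    intro a b hab hs
    have h1 : (P.lam i r l a : ℝ) ≤ P.lam i r l b := by exact_mod_cast hab
    unfold phi
    linarith
  have fwd : ∀ x ∈ r :: l :: M, ∀ y ∈ r :: l :: M,
      ((x < l ↔ y < l) ∧ x < y) ∨ (¬ x < l ∧ y < l) →
      P.phi i r l x < P.phi i r l y := by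
    intro x hx y hy hxy
    have hx' := hcases x hx
    have hy' := hcases y hy
    rcases hxy with ⟨hw, hlt⟩ | ⟨hwx, hwy⟩
    · by_cases hxl : x < l
      · have hyl := hw.1 hxl
        have h1 := hrk hlt.le
        refine le_case ?_ ?_
        · rcases hx' with ⟨-, -, h2⟩ | ⟨h2, -⟩ | ⟨h2, -⟩ | ⟨h2, -⟩
          · rcases hy' with ⟨-, -, h3⟩ | ⟨h3, -⟩ | ⟨h3, -⟩ | ⟨h3, -⟩
            · rw [h2, h3]; omega
            · linarith
            · linarith
            · linarith
          · linarith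
          · linarith
          · linarith
        · rw [if_pos hxl, if_pos hyl]
          linarith [sq_mono hlt]
      · have hyl : ¬ y < l := fun hh => hxl (hw.2 hh)
        have h1 := hrk hlt.le
        rcases hx' with ⟨h2, -⟩ | ⟨h2, h2'⟩ | ⟨h2, h2'⟩ | ⟨h2, h2a, h2b, h2'⟩
        · exact absurd h2 hxl
        · rcases hy' with ⟨h3, -⟩ | ⟨h3, h3'⟩ | ⟨h3, h3'⟩ | ⟨h3, h3a, h3b, h3'⟩
          · exact absurd h3 hyl
          · linarith
          · exact lt_of_lam (by rw [h2', h3']; omega)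
          · exact lt_of_lam (by rw [h2', h3']; omega)
        · rcases hy' with ⟨h3, -⟩ | ⟨h3, h3'⟩ | ⟨h3, h3'⟩ | ⟨h3, h3a, h3b, h3'⟩
          · exact absurd h3 hyl
          · linarith
          · linarith
          · exact lt_of_lam (by rw [h2', h3']; omega)
        · rcases hy' with ⟨h3, -⟩ | ⟨h3, h3'⟩ | ⟨h3, h3'⟩ | ⟨h3, h3a, h3b, h3'⟩
          · exact absurd h3 hyl
          · linarith
          · linarith
          · refine le_case (by rw [h2', h3']; omega) ?_
            rw [if_neg hxl, if_neg hyl]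
            linarith [sq_mono hlt]
    · refine le_case ?_ ?_
      · rcases hy' with ⟨-, -, h3⟩ | ⟨h3, -⟩ | ⟨h3, -⟩ | ⟨h3, -⟩
        · rw [h3]
          rcases hx' with ⟨h2, -⟩ | ⟨h2, h2'⟩ | ⟨h2, h2'⟩ | ⟨h2, h2a, h2b, h2'⟩
          · exact absurd h2 hwx
          · rw [h2']; omega
          · rw [h2']; omega
          · rw [h2']; omega
        · linarith
        · linarith
        · linarith
      · rw [if_neg hwx, if_pos hwy]
        have x2 := sq_lt_one x
        have y1 := sq_pos y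
        linarith
  constructor
  · intro x hx y hy
    have h1 := fwd x hx y hy
    have h2 := fwd y hy x hx
    constructor
    · intro hlt
      by_cases hxl : x < l <;> by_cases hyl : y < l
      · left
        refine ⟨by simp [hxl, hyl], ?_⟩
        rcases lt_trichotomy x y with h3 | h3 | h3
        · exact h3
        · rw [h3] at hlt; exact absurd hlt (lt_irrefl _)
        · exact absurd (h2 (Or.inl ⟨by simp [hxl, hyl], h3⟩)) hlt.not_gt
      · exact absurd (h2 (Or.inr ⟨hyl, hxl⟩)) hlt.not_gt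
      · right
        exact ⟨by simp [hxl], by simp [hyl]⟩
      · left
        refine ⟨by simp [hxl, hyl], ?_⟩
        rcases lt_trichotomy x y with h3 | h3 | h3
        · exact h3
        · rw [h3] at hlt; exact absurd hlt (lt_irrefl _)
        · exact absurd (h2 (Or.inl ⟨by simp [hxl, hyl], h3⟩)) hlt.not_gt
    · rintro (⟨h3, h4⟩ | ⟨h3, h4⟩)
      · refine h1 (Or.inl ⟨?_, h4⟩)
        rwa [decide_eq_decide] at h3
      · exact h1 (Or.inr ⟨by simpa using h3, by simpa using h4⟩)
  · intro x hx y hy hwx hwy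
    simp only [decide_eq_true_eq, decide_eq_false_iff_not] at hwx hwy
    exact lt_of_lt_of_le hwx (not_lt.1 hwy)

/-- the curve after the cut -/
theorem Low.crvZ (H : P.Low z R v r l M E) {E' : ℝ → ℝ}
    (hE : ∀ x ∈ r :: l :: M, E' (P.phi (P.rk (P.pos z)) r l x) = E x) :
    Crv (P.DZ (P.rk (P.pos z))) true ((r :: l :: M).map (P.phi (P.rk (P.pos z)) r l)) E' := by
  refine crv_map H.crv rfl H.cut (fun b => - (P.cnt b (P.rk (P.pos z)) : ℝ)) ?_ hE
  intro b x hx
  have hx' := H.cases' hx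
  have hi := P.rk_pos_lt z
  have hrkl := H.rkl
  have hrkr := H.rkr
  have hrl : l < r := H.lz.trans H.zr
  show P.cz _ b ⌊P.phi _ r l x⌋₊ = (P.cnt b (P.rk x) : ℝ) + _ + _
  have hM2 : 2 * P.D0.M = (h : ℝ) := by
    show 2 * ((h : ℝ) / 2) = h
    ring
  rw [P.floor_phi, hM2]
  generalize P.rk (P.pos z) = i at *
  rcases hx' with ⟨h2, h2a, h2'⟩ | ⟨h2, h2'⟩ | ⟨h2, h2'⟩ | ⟨h2, h2a, h2b, h2'⟩
  · have hk : kk i (2 * h + 1 - i + P.rk x) = 2 * h + P.rk x := by
      unfold kk; rw [if_neg (by omega)]; omega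
    rw [h2', show decide (x < l) = true by simpa using h2, if_pos rfl]
    unfold cz
    rw [hk]
    by_cases h0 : P.rk x = 0
    · rw [if_pos (by omega), h0, add_zero, P.cnt_top, P.cnt_zero]
      push_cast
      ring
    · rw [if_neg (by omega), show 2 * h + P.rk x - 2 * h = P.rk x by omega, min_eq_left h2a]
      ring
  · have hk : kk i 0 = i := by unfold kk; rw [if_pos (by omega)]; omega
    rw [h2', show decide (x < l) = false by simp [h2], if_neg (by simp)]
    unfold cz
    rw [hk, if_pos (by omega), h2, hrkl]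
    ring
  · have hk : kk i 1 = i + 1 := by unfold kk; rw [if_pos (by omega)]
    rw [h2', show decide (x < l) = false by simp [h2, hrl.le], if_neg (by simp)]
    unfold cz
    rw [hk, if_pos (by omega), h2, hrkr]
    ring
  · have hk : kk i (P.rk x - i + 1) = P.rk x := by
      unfold kk; rw [if_neg (by omega)]; omega
    rw [h2', show decide (x < l) = false by simp [(hrl.trans h2).le], if_neg (by simp)]
    unfold cz
    rw [hk, if_pos h2b]
    ring

theorem Low.lab_ne (H : P.Low z R v r l M E) {x : ℝ} (hx : x ∈ r :: l :: M) (hxr : x ≠ r) :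
    P.lam (P.rk (P.pos z)) r l x ≠ P.lam (P.rk (P.pos z)) r l r := by
  have hx' := H.cases' hx
  have hr' := H.cases' (x := r) (by simp)
  have hi := P.rk_pos_lt z
  have hrl : l < r := H.lz.trans H.zr
  have hr1 : P.lam (P.rk (P.pos z)) r l r = 1 := by
    rcases hr' with ⟨h2, -⟩ | ⟨h2, -⟩ | ⟨-, h2⟩ | ⟨h2, -⟩
    · exact absurd h2 hrl.not_gt
    · exact absurd h2 hrl.ne'
    · exact h2
    · exact absurd h2 (lt_irrefl _)
  rw [hr1]
  generalize P.rk (P.pos z) = i at *
  rcases hx' with ⟨h2, h2a, h2'⟩ | ⟨h2, h2'⟩ | ⟨h2, h2'⟩ | ⟨h2, h2a, h2b, h2'⟩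
  · rw [h2']; omega
  · rw [h2']; omega
  · exact absurd h2 hxr
  · rw [h2']; omega

theorem Low.wordZ (H : P.Low z R v r l M E) :
    P040H251.wd (P.DZ (P.rk (P.pos z))) true ((r :: l :: M).map (P.phi (P.rk (P.pos z)) r l)) =
      FreeGroup.mk [(1, true), (0, false)] * psi h (P.rk (P.pos z))
        ((FreeGroup.of (P.G0.lt z))⁻¹ * R * FreeGroup.of (P.G0.lt z)) := by
  unfold P040H251.wd
  rw [wl_map_lab (P.lam (P.rk (P.pos z)) r l) (P.DZ (P.rk (P.pos z))).lab true _ _
    (fun x _ => P.floor_phi _ r l x)]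
  have hr1 : P.lam (P.rk (P.pos z)) r l r = 1 := by
    have hrl : l < r := H.lz.trans H.zr
    unfold lam; rw [if_neg hrl.not_gt, if_neg hrl.ne', if_pos rfl]
  have hl0 : P.lam (P.rk (P.pos z)) r l l = 0 := by
    unfold lam; rw [if_neg (lt_irrefl _), if_pos rfl]
  have h1 : wl (P.lam (P.rk (P.pos z)) r l) true (r :: l :: M) =
      [(1, true), (0, false)] ++ wl (P.lam (P.rk (P.pos z)) r l) true M := by
    show (P.lam _ r l r, true) :: (P.lam _ r l l, !true) :: wl _ (!!true) M = _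
    rw [hr1, hl0]
    rfl
  rw [h1, ← FreeGroup.mul_mk]
  congr 1
  have hgap : ∀ x ∈ M, P.lam (P.rk (P.pos z)) r l x = jz h (P.rk (P.pos z)) (P.G0.gap x) := by
    intro x hx
    have hx' := H.cases' (x := x) (by simp [hx])
    have hc := H.cases hx
    have hi := P.rk_pos_lt z
    have hrl : l < r := H.lz.trans H.zr
    show _ = jz h _ (P.rk x % (2 * h))
    generalize P.rk (P.pos z) = i at *
    rcases hx' with ⟨h2, h2a, h2'⟩ | ⟨h2, h2'⟩ | ⟨h2, h2'⟩ | ⟨h2, h2a, h2b, h2'⟩
    · rw [h2', Nat.mod_eq_of_lt (by omega)]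
      unfold jz
      rw [if_neg (by omega)]
    · rcases hc with hc | hc
      · exact absurd h2 hc.ne
      · exact absurd h2 (hrl.trans hc).ne'
    · rcases hc with hc | hc
      · exact absurd h2 (hc.trans hrl).ne
      · exact absurd h2 hc.ne'
    · rw [h2']
      rcases Nat.lt_or_ge (P.rk x) (2 * h) with h3 | h3
      · rw [Nat.mod_eq_of_lt h3]
        unfold jz
        rw [if_pos h2a]
      · have h4 : P.rk x = 2 * h := le_antisymm h2b h3
        rw [h4, Nat.mod_self]
        unfold jz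
        rw [if_neg (by omega)]
        omega
  rw [P.mk_wl M true hgap]
  congr 1
  have hw : Pst.cl true (P.G0.gap l) * Pst.wd P.G0 false M =
      R * FreeGroup.of (P.G0.lt z) := H.word
  rw [gap_lt H.rkl] at hw
  show Pst.wd P.G0 false M = _
  rw [mul_assoc, ← hw]
  simp [Pst.cl]

/-- the curve with standard labels -/
theorem Low.std (H : P.Low z R v r l M E) :
    ∃ (L' : List ℝ) (E' : ℝ → ℝ), Crv (P.DZ (P.rk (P.pos z))) true L' E' ∧
      (∀ x ∈ L', x ≠ g L' 0 → (P.DZ (P.rk (P.pos z))).lab x ≠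
        (P.DZ (P.rk (P.pos z))).lab (g L' 0)) ∧
      P040H251.wd (P.DZ (P.rk (P.pos z))) true L' =
        FreeGroup.mk [(1, true), (0, false)] * psi h (P.rk (P.pos z))
        ((FreeGroup.of (P.G0.lt z))⁻¹ * R * FreeGroup.of (P.G0.lt z)) ∧
      v = selApi.val true L' E' - E' (g L' 0) := by
  have hinj : Set.InjOn (P.phi (P.rk (P.pos z)) r l) {x | x ∈ r :: l :: M} :=
    fun x hx y hy hxy => H.cut.inj x hx y hy hxy
  obtain ⟨E', hE⟩ : ∃ E' : ℝ → ℝ, ∀ x ∈ r :: l :: M,
      E' (P.phi (P.rk (P.pos z)) r l x) = E x := by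
    refine ⟨fun y => E (Function.invFunOn (P.phi (P.rk (P.pos z)) r l)
      {x | x ∈ r :: l :: M} y), ?_⟩
    intro x hx
    show E (Function.invFunOn _ _ (P.phi (P.rk (P.pos z)) r l x)) = E x
    rw [hinj.leftInvOn_invFunOn hx]
  have hC := H.crvZ hE
  refine ⟨_, _, hC, ?_, H.wordZ, ?_⟩
  · intro x hx hne
    rw [List.mem_map] at hx
    obtain ⟨y, hy, rfl⟩ := hx
    have h0 : g ((r :: l :: M).map (P.phi (P.rk (P.pos z)) r l)) 0 =
        P.phi (P.rk (P.pos z)) r l r := rfl
    rw [h0] at hne ⊢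
    show ⌊P.phi _ r l y⌋₊ ≠ ⌊P.phi _ r l r⌋₊
    rw [P.floor_phi, P.floor_phi]
    exact H.lab_ne hy (fun hh => hne (by rw [hh]))
  · rw [val_map H.crv hC rfl H.cut hE, H.val]
    congr 1
    exact (hE r (by simp)).symm

/-- **Uniqueness of the values.** -/
theorem Val.uniq {v' : ℝ} (h1 : P.Val z R v) (h2 : P.Val z R v') : v = v' := by
  obtain ⟨r1, l1, M1, E1, H1⟩ := h1.low
  obtain ⟨r2, l2, M2, E2, H2⟩ := h2.low
  obtain ⟨L1, F1, a1, a2, a3, a4⟩ := H1.std
  obtain ⟨L2, F2, b1, b2, b3, b4⟩ := H2.std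
  rw [a4, b4]
  exact class_eq selApi a1 b1 a2 b2 (by rw [a3, b3])

end low

end LData

end Vale.Agent.P040.H84
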